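import Vale.Agent.P112.F30.Defs

/-!
# P112, (FF0): separated families WITHOUT trimming. Definitions and exact statement (helper788)

`SepFam` : one family of (fat) trees. No scale of a point is removed: the separation holds for
every pair `(z, j)` of a tree `i` lying in the (fat) top tube of another tree `i'`.
-/

open MeasureTheory Set
open scoped ENNReal

set_option linter.dupNamespace false

namespace Vale.Agent.P112.H788

open T F30

/-- One separated family of trees: grid `τ`, slope tolerance `A`, separation `G`, half width `W`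
of the trees, half width `B` of the tops, slopes `s`, lines `y = c + s x`, levels `lev`,
cells `m`, active sets `E`. `u z` is the slope of the point `z`. -/
structure SepFam {ι : Type} (u : ℝ × ℝ → ℝ) (τ A G W B : ℝ) (s c : ι → ℝ) (lev : ι → ℕ)
    (m : ι → ℤ) (E : ι → ℕ → Set (ℝ × ℝ)) : Prop where
  meas : ∀ i j, MeasurableSet (E i j)
  lt : ∀ i j, (E i j).Nonempty → lev i + 9 ≤ j
  slope : ∀ i j, ∀ z ∈ E i j, |u z - s i| ≤ A * 2 ^ j
  line : ∀ i j, ∀ z ∈ E i j, |z.2 - c i - s i * z.1| ≤ W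
  inside : ∀ i j, ∀ z ∈ E i j, ∀ x : ℝ, |x - z.1| ≤ 16 / 2 ^ j → q τ (lev i) x = m i
  conv : ∀ i z, ∀ j k l : ℕ, j ≤ k → k ≤ l → z ∈ E i j → z ∈ E i l → z ∈ E i k
  disj : ∀ i i' j j' z, z ∈ E i j → z ∈ E i' j' → i = i'
  sep : ∀ i i', i ≠ i' → ∀ j, ∀ z ∈ E i j, z ∈ Top τ (lev i') (m i') (s i') (c i') B →
    G * 2 ^ j ≤ |u z - s i'|

/-- The tops of the family are distinct: two fat tops with a common point are far in slope. -/
def TopSep {ι : Type} (τ G B : ℝ) (s c : ι → ℝ) (lev : ι → ℕ) (m : ι → ℤ) : Prop :=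
  ∀ i i', i ≠ i' → (Top τ (lev i) (m i) (s i) (c i) B ∩ Top τ (lev i') (m i') (s i') (c i') B).Nonempty →
    G * 2 ^ max (lev i) (lev i') ≤ |s i - s i'|

/-- **(FF0)** `M` : the thin tops of `(FD2)` (or any finite list), `S` the slope constant, `H` the
height of the windows, `ε` the exponent of the weights, `R` the number of classes. Every pair of
`P` (all of them have a weighted count in `[1 / 2, (6 / 5) ^ R]`) lies in exactly one tree of one
family; there are at most `C S (R + 1)` families. -/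
def StFF0 : Prop := ∃ C : ℝ, 0 < C ∧
  ∀ (u : ℝ × ℝ → ℝ), Field u → ∀ (κ : Type) [Fintype κ] (M : Tops κ) (n : ℕ)
    (P : ℕ → Set (ℝ × ℝ)) (S H ε : ℝ) (R : ℕ), 2 ^ 20 ≤ S → S ≤ H → 0 < ε →
    ε * (2000 * H) ≤ 1 / 16 → PSys n P →
    (∀ j, ∀ z ∈ P j, 9 ≤ j ∧ 1 / 2 ≤ M.B u S ε z j ∧ M.B u S ε z j ≤ (6 / 5) ^ R) →
    ∃ (Λ : Type) (_ : Fintype Λ) (ι : Λ → Type) (_ : ∀ k, Fintype (ι k)) (τ A G : Λ → ℝ)
      (s c : ∀ k, ι k → ℝ) (lev : ∀ k, ι k → ℕ) (m : ∀ k, ι k → ℤ)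
      (E : ∀ k, ι k → ℕ → Set (ℝ × ℝ)),
      (Fintype.card Λ : ℝ) ≤ C * S * (R + 1) ∧
      (∀ k, SepFam u (τ k) (A k) (G k) (H / 2) (32 * H) (s k) (c k) (lev k) (m k) (E k)) ∧
      (∀ k, TopSep (τ k) (G k) (32 * H) (s k) (c k) (lev k) (m k)) ∧
      (∀ k, (A k = S / 128 ∧ G k = S / 2) ∨ (A k = 1 ∧ G k = S / 4096)) ∧
      (∀ k, τ k = 0 ∨ τ k = 1 / 3) ∧
      (∀ k i j, E k i j ⊆ P j) ∧
      (∀ j, ∀ z ∈ P j, ∃ k i, z ∈ E k i j) ∧
      (∀ j z k i k' i', z ∈ E k i j → z ∈ E k' i' j → k = k')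

end Vale.Agent.P112.H788
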