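import Vale.Agent.P112.F30.FF3
import Vale.Agent.P112.H788.Defs

/-!
# (FF0) part 1: the tree families of one class (no trimming)
-/

open MeasureTheory Set
open scoped ENNReal

set_option linter.dupNamespace false

namespace Vale.Agent.P112.H788

open T H8 F30

/-- the top `(lev, U)` is available for the pair `(z, j)` in the window `b` -/
def Avl (u : ℝ × ℝ → ℝ) (τ S H : ℝ) (b : ℤ) (lev : ℕ) (U : ℝ × ℝ) (j : ℕ) (z : ℝ × ℝ) : Prop :=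
  lev + 9 ≤ j ∧ |u z - u U| ≤ S / 128 * 2 ^ j ∧ b * H ≤ z.2 - ln u U z.1 ∧
    z.2 - ln u U z.1 < (b + 1) * H ∧
    q τ lev (z.1 - 16 / 2 ^ j) = q τ lev U.1 ∧ q τ lev (z.1 + 16 / 2 ^ j) = q τ lev U.1

theorem Avl.inside {u : ℝ × ℝ → ℝ} {τ S H : ℝ} {b : ℤ} {lev : ℕ} {U : ℝ × ℝ} {j : ℕ} {z : ℝ × ℝ}
    (h : Avl u τ S H b lev U j z) {x : ℝ} (hx : |x - z.1| ≤ 16 / 2 ^ j) :
    q τ lev x = q τ lev U.1 := by
  obtain ⟨h1, h2⟩ := abs_le.1 hx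
  exact q_between h.2.2.2.2.1 h.2.2.2.2.2 (by linarith) (by linarith)

theorem Avl.cell {u : ℝ × ℝ → ℝ} {τ S H : ℝ} {b : ℤ} {lev : ℕ} {U : ℝ × ℝ} {j : ℕ} {z : ℝ × ℝ}
    (h : Avl u τ S H b lev U j z) : q τ lev z.1 = q τ lev U.1 :=
  h.inside (by rw [sub_self, abs_zero]; positivity)

theorem Avl.mono {u : ℝ × ℝ → ℝ} {τ S H : ℝ} {b : ℤ} {lev : ℕ} {U : ℝ × ℝ} {j j' : ℕ} {z : ℝ × ℝ}
    (hS : 0 ≤ S) (h : Avl u τ S H b lev U j z) (hj : j ≤ j') : Avl u τ S H b lev U j' z := by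
  have hp : (0 : ℝ) < 2 ^ j := by positivity
  have hpp : (2 : ℝ) ^ j ≤ 2 ^ j' := pow_le_pow_right₀ (by norm_num) hj
  have hr : 16 / (2 ^ j' : ℝ) ≤ 16 / (2 ^ j) := by gcongr
  have hr0 : 0 < 16 / (2 ^ j' : ℝ) := by positivity
  refine ⟨h.1.trans hj, h.2.1.trans ?_, h.2.2.1, h.2.2.2.1, ?_, ?_⟩
  · exact mul_le_mul_of_nonneg_left hpp (by positivity)
  · apply h.inside
    rw [abs_le]; constructor <;> linarith
  · apply h.inside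
    rw [abs_le]; constructor <;> linarith

theorem Avl.meas {u : ℝ × ℝ → ℝ} (hu : Measurable u) (τ S H : ℝ) (b : ℤ) (lev : ℕ) (U : ℝ × ℝ)
    (j : ℕ) : MeasurableSet {z | Avl u τ S H b lev U j z} := by
  have e : {z | Avl u τ S H b lev U j z} = {z : ℝ × ℝ | lev + 9 ≤ j} ∩
      ({z | |u z - u U| ≤ S / 128 * 2 ^ j} ∩
      ({z | b * H ≤ z.2 - ln u U z.1} ∩ ({z | z.2 - ln u U z.1 < (b + 1) * H} ∩
      ({z | q τ lev (z.1 - 16 / 2 ^ j) = q τ lev U.1} ∩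
      {z | q τ lev (z.1 + 16 / 2 ^ j) = q τ lev U.1})))) := by
    ext z; simp [Avl]
  rw [e]
  have hl := ln_meas (u := u) U
  refine MeasurableSet.inter (MeasurableSet.const _) (MeasurableSet.inter ?_
    (MeasurableSet.inter ?_ (MeasurableSet.inter ?_ (MeasurableSet.inter ?_ ?_))))
  · exact measurableSet_le (by fun_prop) measurable_const
  · exact measurableSet_le measurable_const (measurable_snd.sub hl)
  · exact measurableSet_lt (measurable_snd.sub hl) measurable_const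
  · exact ((q_meas τ lev).comp (by fun_prop : Measurable fun z : ℝ × ℝ => z.1 - 16 / 2 ^ j))
      (measurableSet_singleton _)
  · exact ((q_meas τ lev).comp (by fun_prop : Measurable fun z : ℝ × ℝ => z.1 + 16 / 2 ^ j))
      (measurableSet_singleton _)

/-- the selected tops, not near with the line tolerance `80 H` -/
abbrev Sel (u : ℝ × ℝ → ℝ) (P : ℕ → Set (ℝ × ℝ)) (S H τ : ℝ)
    (F : Finset (ℕ × ℤ × ℤ × ℤ)) (wt : ℕ × ℤ × ℤ × ℤ → ℝ × ℝ) : Prop :=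
  TopSel u P S (40 * H - 4) τ F wt

theorem Sel.nn' {u : ℝ × ℝ → ℝ} {P : ℕ → Set (ℝ × ℝ)} {S H τ : ℝ}
    {F : Finset (ℕ × ℤ × ℤ × ℤ)} {wt : ℕ × ℤ × ℤ × ℤ → ℝ × ℝ} (h : Sel u P S H τ F wt)
    {t t' : ℕ × ℤ × ℤ × ℤ} (ht : t ∈ F) (ht' : t' ∈ F) (hne : t ≠ t') :
    ¬ Near u τ S (80 * H) t.1 (wt t) t'.1 (wt t') := by
  have := h.nn t ht t' ht' hne
  rwa [show 2 * (40 * H - 4) + 8 = 80 * H by ring] at this

theorem abs_win {b : ℤ} {H y : ℝ} (h1 : b * H ≤ y) (h2 : y < (b + 1) * H) :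
    |y - (b + 1 / 2) * H| ≤ H / 2 := by
  rw [abs_le]; constructor <;> linarith

/-- two available tops of the same window coincide -/
theorem avl_unique {u : ℝ × ℝ → ℝ} {Q : ℕ → Set (ℝ × ℝ)} {S H D τ : ℝ} (hS : 0 ≤ S) (hH : 1 ≤ H)
    (hCT : CT u Q S D) {F : Finset (ℕ × ℤ × ℤ × ℤ)} {wt : ℕ × ℤ × ℤ × ℤ → ℝ × ℝ}
    (hF : Sel u Q S H τ F wt) {b : ℤ} (hb : |(b : ℝ) * H| + H ≤ D)
    {j : ℕ} {z : ℝ × ℝ} (hz : z ∈ Q j) {t t' : ℕ × ℤ × ℤ × ℤ} (ht : t ∈ F) (ht' : t' ∈ F)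
    (h : Avl u τ S H b t.1 (wt t) j z) (h' : Avl u τ S H b t'.1 (wt t') j z) : t = t' := by
  by_contra hne
  apply hF.nn' ht ht' hne
  have hp : (0 : ℝ) < 2 ^ j := by positivity
  have hoff : ∀ {s : ℕ × ℤ × ℤ × ℤ}, Avl u τ S H b s.1 (wt s) j z →
      |z.2 - ln u (wt s) z.1| ≤ D := by
    intro s hs
    obtain ⟨b1, b2⟩ := abs_le.1 (le_refl |(b : ℝ) * H|)
    rw [abs_le]
    constructor
    · linarith [hs.2.2.1]
    · linarith [hs.2.2.2.1]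
  have hx : ∀ {s : ℕ × ℤ × ℤ × ℤ}, Avl u τ S H b s.1 (wt s) j z →
      |z.1 - (wt s).1| ≤ 2 / 2 ^ s.1 := by
    intro s hs
    refine (q_close hs.cell).trans ?_
    gcongr
    norm_num
  have hsl : S / 128 * 2 ^ j ≤ S / 2 * 2 ^ j := by
    apply mul_le_mul_of_nonneg_right _ hp.le
    linarith
  refine ⟨hCT j t.1 t'.1 z (wt t) (wt t') hz (hF.mem t ht) (hF.mem t' ht')
    (by have := h.1; omega) (by have := h'.1; omega)
    (h.2.1.trans hsl) (h'.2.1.trans hsl) (hx h) (hx h') (hoff h) (hoff h'),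
    z.1, h.cell, h'.cell, ?_⟩
  rw [abs_le]
  constructor
  · linarith [h.2.2.1, h.2.2.2.1, h'.2.2.1, h'.2.2.2.1]
  · linarith [h.2.2.1, h.2.2.2.1, h'.2.2.1, h'.2.2.2.1]

theorem top_off {u : ℝ × ℝ → ℝ} {τ B w : ℝ} {lev : ℕ} {m : ℤ} {U ζ : ℝ × ℝ}
    (h : ζ ∈ Top τ lev m (u U) (ln u U 0 + w) B) : |ζ.2 - ln u U ζ.1 - w| ≤ B := by
  have e : ζ.2 - ln u U ζ.1 - w = ζ.2 - (ln u U 0 + w) - u U * ζ.1 := by
    unfold ln; ring
  rw [e]; exact h.2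

/-- separation -/
theorem avl_sep {u : ℝ × ℝ → ℝ} {Q : ℕ → Set (ℝ × ℝ)} {S H D τ : ℝ} (hS : 0 ≤ S) (hH : 1 ≤ H)
    (hCT : CT u Q S D) {F : Finset (ℕ × ℤ × ℤ × ℤ)} {wt : ℕ × ℤ × ℤ × ℤ → ℝ × ℝ}
    (hF : Sel u Q S H τ F wt) {b : ℤ} (hb : |(b : ℝ) * H| + 33 * H ≤ D)
    {j : ℕ} {z : ℝ × ℝ} (hz : z ∈ Q j) {t t' : ℕ × ℤ × ℤ × ℤ} (ht : t ∈ F) (ht' : t' ∈ F)
    (hne : t ≠ t') (h : Avl u τ S H b t.1 (wt t) j z)
    (hζ : z ∈ Top τ t'.1 (q τ t'.1 (wt t').1) (u (wt t')) (ln u (wt t') 0 + (b + 1 / 2) * H)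
      (32 * H)) : S / 2 * 2 ^ j ≤ |u z - u (wt t')| := by
  by_contra hlt
  push Not at hlt
  apply hF.nn' ht ht' hne
  have hp : (0 : ℝ) < 2 ^ j := by positivity
  have hoff' := top_off hζ
  have hcell' : q τ t'.1 z.1 = q τ t'.1 (wt t').1 := hζ.1
  have hoff := abs_win h.2.2.1 h.2.2.2.1
  have hsl : S / 128 * 2 ^ j ≤ S / 2 * 2 ^ j := by
    apply mul_le_mul_of_nonneg_right _ hp.le
    linarith
  obtain ⟨a1, a2⟩ := abs_le.1 hoff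
  obtain ⟨a3, a4⟩ := abs_le.1 hoff'
  obtain ⟨b1, b2⟩ := abs_le.1 (le_refl |(b : ℝ) * H|)
  refine ⟨?_, z.1, h.cell, hcell', ?_⟩
  · rcases lt_or_ge t'.1 j with hlev | hlev
    · refine hCT j t.1 t'.1 z (wt t) (wt t') hz (hF.mem t ht) (hF.mem t' ht')
        (by have := h.1; omega) hlev (h.2.1.trans hsl) hlt.le ?_ ?_ ?_ ?_
      · refine (q_close h.cell).trans ?_
        gcongr
        norm_num
      · refine (q_close hcell').trans ?_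
        gcongr
        norm_num
      · rw [abs_le]; constructor <;> linarith
      · rw [abs_le]; constructor <;> linarith
    · have e : (2 : ℝ) ^ j ≤ 2 ^ max t.1 t'.1 :=
        pow_le_pow_right₀ (by norm_num) (hlev.trans (le_max_right _ _))
      calc |u (wt t) - u (wt t')| ≤ |u (wt t) - u z| + |u z - u (wt t')| := abs_sub_le _ _ _
        _ ≤ S / 128 * 2 ^ j + S / 2 * 2 ^ j := by
            rw [abs_sub_comm (u (wt t))]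
            exact add_le_add h.2.1 hlt.le
        _ ≤ 2 * S * 2 ^ j := by nlinarith
        _ ≤ 2 * S * 2 ^ max t.1 t'.1 := by gcongr
  · rw [abs_le]
    constructor <;> linarith

/-- separation of the tops -/
theorem avl_topsep {u : ℝ × ℝ → ℝ} {Q : ℕ → Set (ℝ × ℝ)} {S H τ : ℝ} (hS : 0 ≤ S) (hH : 1 ≤ H)
    {F : Finset (ℕ × ℤ × ℤ × ℤ)} {wt : ℕ × ℤ × ℤ × ℤ → ℝ × ℝ}
    (hF : Sel u Q S H τ F wt) {b : ℤ} {t t' : ℕ × ℤ × ℤ × ℤ} (ht : t ∈ F) (ht' : t' ∈ F)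
    (hne : t ≠ t') {ζ : ℝ × ℝ}
    (h : ζ ∈ Top τ t.1 (q τ t.1 (wt t).1) (u (wt t)) (ln u (wt t) 0 + (b + 1 / 2) * H) (32 * H))
    (h' : ζ ∈ Top τ t'.1 (q τ t'.1 (wt t').1) (u (wt t')) (ln u (wt t') 0 + (b + 1 / 2) * H)
      (32 * H)) : S / 2 * 2 ^ max t.1 t'.1 ≤ |u (wt t) - u (wt t')| := by
  by_contra hlt
  push Not at hlt
  apply hF.nn' ht ht' hne
  obtain ⟨a1, a2⟩ := abs_le.1 (top_off h)
  obtain ⟨a3, a4⟩ := abs_le.1 (top_off h')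
  have hp : (0 : ℝ) < 2 ^ max t.1 t'.1 := by positivity
  refine ⟨hlt.le.trans (by nlinarith), ζ.1, h.1, h'.1, ?_⟩
  rw [abs_le]
  constructor <;> linarith

/-- some top is available for `(z, j)` in the subfamily `k` -/
def AvlK (u : ℝ × ℝ → ℝ) (S H : ℝ) (B0 : ℕ) (F : ℝ → Finset (ℕ × ℤ × ℤ × ℤ))
    (wt : ℝ → ℕ × ℤ × ℤ × ℤ → ℝ × ℝ) (k j : ℕ) (z : ℝ × ℝ) : Prop :=
  ∃ t ∈ F (τk k), Avl u (τk k) S H (bk B0 k) t.1 (wt (τk k) t) j z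

/-- the tree sets -/
def EE0 (u : ℝ × ℝ → ℝ) (P : ℕ → Set (ℝ × ℝ)) (S H : ℝ) (B0 : ℕ)
    (F : ℝ → Finset (ℕ × ℤ × ℤ × ℤ)) (wt : ℝ → ℕ × ℤ × ℤ × ℤ → ℝ × ℝ) (k : ℕ)
    (t : ℕ × ℤ × ℤ × ℤ) (j : ℕ) : Set (ℝ × ℝ) :=
  {z | z ∈ P j ∧ Avl u (τk k) S H (bk B0 k) t.1 (wt (τk k) t) j z ∧
    ∀ k' < k, ¬ AvlK u S H B0 F wt k' j z}

theorem AvlK.mono {u : ℝ × ℝ → ℝ} {S H : ℝ} (hS : 0 ≤ S) {B0 : ℕ}
    {F : ℝ → Finset (ℕ × ℤ × ℤ × ℤ)}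
    {wt : ℝ → ℕ × ℤ × ℤ × ℤ → ℝ × ℝ} {k j j' : ℕ} {z : ℝ × ℝ} (h : AvlK u S H B0 F wt k j z)
    (hj : j ≤ j') : AvlK u S H B0 F wt k j' z := by
  obtain ⟨t, ht, h⟩ := h
  exact ⟨t, ht, h.mono hS hj⟩

theorem AvlK.meas {u : ℝ × ℝ → ℝ} (hu : Measurable u) (S H : ℝ) (B0 : ℕ)
    (F : ℝ → Finset (ℕ × ℤ × ℤ × ℤ)) (wt : ℝ → ℕ × ℤ × ℤ × ℤ → ℝ × ℝ) (k j : ℕ) :
    MeasurableSet {z | AvlK u S H B0 F wt k j z} := by
  have e : {z | AvlK u S H B0 F wt k j z} =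
      ⋃ t ∈ F (τk k), {z | Avl u (τk k) S H (bk B0 k) t.1 (wt (τk k) t) j z} := by
    ext z; simp [AvlK]
  rw [e]
  exact Finset.measurableSet_biUnion _ fun t _ => Avl.meas hu _ _ _ _ _ _ _

theorem EE0.meas {u : ℝ × ℝ → ℝ} (hu : Measurable u) {P : ℕ → Set (ℝ × ℝ)}
    (hP : ∀ j, MeasurableSet (P j)) (S H : ℝ) (B0 : ℕ)
    (F : ℝ → Finset (ℕ × ℤ × ℤ × ℤ)) (wt : ℝ → ℕ × ℤ × ℤ × ℤ → ℝ × ℝ) (k : ℕ)
    (t : ℕ × ℤ × ℤ × ℤ) (j : ℕ) : MeasurableSet (EE0 u P S H B0 F wt k t j) := by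
  have e : EE0 u P S H B0 F wt k t j = P j ∩
      ({z | Avl u (τk k) S H (bk B0 k) t.1 (wt (τk k) t) j z} ∩
        ⋂ k' : ℕ, ⋂ _ : k' < k, {z | AvlK u S H B0 F wt k' j z}ᶜ) := by
    ext z
    simp only [EE0, mem_inter_iff, mem_iInter, mem_compl_iff, mem_ofPred_eq]
  rw [e]
  refine (hP j).inter ((Avl.meas hu _ _ _ _ _ _ _).inter ?_)
  exact MeasurableSet.iInter fun k' => MeasurableSet.iInter fun _ =>
    (AvlK.meas hu S H B0 F wt k' j).compl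

theorem not_inside_grid16 {τ : ℝ} {a j : ℕ} {x : ℝ} {m : ℤ} (hx : q τ a x = m)
    (h : ¬ (q τ a (x - 16 / 2 ^ j) = m ∧ q τ a (x + 16 / 2 ^ j) = m)) :
    ∃ k : ℤ, |x - (τ + k / 2 ^ a)| ≤ 16 / 2 ^ j := by
  have hr : (0 : ℝ) < 16 / 2 ^ j := by positivity
  rw [not_and_or] at h
  rcases h with h | h
  · obtain ⟨k, h1, h2⟩ := exists_grid_point (τ := τ) (i := a) (x := x - 16 / 2 ^ j) (y := x)
      (by linarith) (by rw [hx]; exact h)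
    exact ⟨k, by rw [abs_le]; constructor <;> linarith⟩
  · obtain ⟨k, h1, h2⟩ := exists_grid_point (τ := τ) (i := a) (x := x) (y := x + 16 / 2 ^ j)
      (by linarith) (by rw [hx]; exact fun hc => h hc.symm)
    exact ⟨k, by rw [abs_le]; constructor <;> linarith⟩

/-- grids `0` and `1 / 3`: one of two cells of levels `≤ j - 9` has the margin `16 / 2 ^ j` -/
theorem grid_alt {a b j : ℕ} (ha : a + 9 ≤ j) (hb : b + 9 ≤ j) {x : ℝ} {m m' : ℤ}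
    (hm : q 0 a x = m) (hm' : q (1 / 3) b x = m') :
    (q 0 a (x - 16 / 2 ^ j) = m ∧ q 0 a (x + 16 / 2 ^ j) = m) ∨
      (q (1 / 3) b (x - 16 / 2 ^ j) = m' ∧ q (1 / 3) b (x + 16 / 2 ^ j) = m') := by
  by_contra hcon
  rw [not_or] at hcon
  obtain ⟨k, hk⟩ := not_inside_grid16 hm hcon.1
  obtain ⟨k', hk'⟩ := not_inside_grid16 hm' hcon.2
  refine two_grids (a := a) (b := b) (j := j - 8) (by omega) (by omega) k k' ?_
  have hpw : (2 : ℝ) ^ j = 2 ^ (j - 8) * 2 ^ 8 := by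
    rw [← pow_add]; congr 1; omega
  calc |(k : ℝ) / 2 ^ a - (1 / 3 + (k' : ℝ) / 2 ^ b)|
      = |(x - (1 / 3 + (k' : ℝ) / 2 ^ b)) - (x - (0 + (k : ℝ) / 2 ^ a))| := by
        congr 1; ring
    _ ≤ |x - (1 / 3 + (k' : ℝ) / 2 ^ b)| + |x - (0 + (k : ℝ) / 2 ^ a)| := abs_sub _ _
    _ ≤ 16 / 2 ^ j + 16 / 2 ^ j := add_le_add hk' hk
    _ ≤ 1 / (4 * 2 ^ (j - 8)) := by
        rw [hpw]
        have : (0 : ℝ) < 2 ^ (j - 8) := by positivity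
        rw [← add_div, div_le_div_iff₀ (by positivity) (by positivity)]
        nlinarith

/-- every pair with `(z, j - 9)` in the class is available somewhere -/
theorem exists_avl {u : ℝ × ℝ → ℝ} {Q : ℕ → Set (ℝ × ℝ)} {S H : ℝ} (hS : 2 ≤ S) (hH : 1 ≤ H)
    {B0 : ℕ} (hB0 : 80 * H + 2 * S + 2 ≤ B0 * H)
    {F : ℝ → Finset (ℕ × ℤ × ℤ × ℤ)} {wt : ℝ → ℕ × ℤ × ℤ × ℤ → ℝ × ℝ}
    (hF : ∀ τ, Sel u Q S H τ (F τ) (wt τ)) {j : ℕ} {z : ℝ × ℝ} (hj : 9 ≤ j)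
    (hz : z ∈ Q (j - 9)) : ∃ k < 2 * (2 * B0 + 1), AvlK u S H B0 F wt k j z := by
  obtain ⟨t0, ht0, hl0, hq0, hs0, ho0⟩ := (hF 0).dom (j - 9) z hz
  obtain ⟨t1, ht1, hl1, hq1, hs1, ho1⟩ := (hF (1 / 3)).dom (j - 9) z hz
  have hpow : (2 : ℝ) ^ j = 2 ^ (j - 9) * 2 ^ 9 := by
    rw [← pow_add]; congr 1; omega
  have hp : (0 : ℝ) < 2 ^ (j - 9) := by positivity
  rw [show 2 * (40 * H - 4) + 2 * S + 10 = 80 * H + 2 * S + 2 by ring] at ho0 ho1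
  -- a generic conclusion
  have key : ∀ (e : ℕ) (he : e < 2) (t : ℕ × ℤ × ℤ × ℤ), t ∈ F (τk e) → t.1 ≤ j - 9 →
      |u z - u (wt (τk e) t)| ≤ (2 * S + 1) * 2 ^ (j - 9) →
      |z.2 - ln u (wt (τk e) t) z.1| ≤ 80 * H + 2 * S + 2 →
      q (τk e) t.1 (z.1 - 16 / 2 ^ j) = q (τk e) t.1 (wt (τk e) t).1 →
      q (τk e) t.1 (z.1 + 16 / 2 ^ j) = q (τk e) t.1 (wt (τk e) t).1 →
      ∃ k < 2 * (2 * B0 + 1), AvlK u S H B0 F wt k j z := by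
    intro e he t ht hlev hs ho hi1 hi2
    have hHp : 0 < H := by linarith
    set y : ℝ := (z.2 - ln u (wt (τk e) t) z.1) / H with hy
    have hyH : y * H = z.2 - ln u (wt (τk e) t) z.1 := by rw [hy]; field_simp
    have hyb : |y| ≤ B0 := by
      rw [hy, abs_div, abs_of_pos hHp, div_le_iff₀ hHp]
      exact ho.trans hB0
    obtain ⟨y1, y2⟩ := abs_le.1 hyb
    have f1 := Int.floor_le y
    have f2 := Int.lt_floor_add_one y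
    have hb2 : ((⌊y⌋ : ℤ) : ℝ) ≤ (B0 : ℤ) := by push_cast; linarith
    have hb1' : -(B0 : ℤ) ≤ ⌊y⌋ := by
      rw [Int.le_floor]; push_cast; exact y1
    have hb2' : ⌊y⌋ ≤ (B0 : ℤ) := by exact_mod_cast hb2
    obtain ⟨c, hc⟩ : ∃ c : ℕ, (c : ℤ) = ⌊y⌋ + B0 := ⟨(⌊y⌋ + B0).toNat, by omega⟩
    have hc2 : c ≤ 2 * B0 := by omega
    set k := 2 * c + e with hk
    have hmod : k % 2 = e := by omega
    have hdiv : k / 2 = c := by omega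
    have hτ : τk k = τk e := by
      unfold τk
      rw [hmod, Nat.mod_eq_of_lt he]
    have hbk : bk B0 k = ⌊y⌋ := by
      unfold bk
      rw [hdiv, hc]; ring
    refine ⟨k, by omega, t, by rw [hτ]; exact ht, ?_⟩
    rw [hτ, hbk]
    refine ⟨by omega, hs.trans ?_, ?_, ?_, hi1, hi2⟩
    · rw [hpow]
      have : (2 * S + 1) ≤ S / 128 * 2 ^ 9 := by norm_num; linarith
      nlinarith
    · rw [← hyH]; exact mul_le_mul_of_nonneg_right f1 hHp.le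
    · rw [← hyH]; exact mul_lt_mul_of_pos_right f2 hHp
  rcases grid_alt (a := t0.1) (b := t1.1) (j := j) (by omega) (by omega) hq0 hq1 with h0 | h1
  · have e0 : τk 0 = 0 := by simp [τk]
    exact key 0 (by norm_num) t0 (by rw [e0]; exact ht0) hl0 (by rw [e0]; exact hs0)
      (by rw [e0]; exact ho0) (by rw [e0]; exact h0.1) (by rw [e0]; exact h0.2)
  · have e1 : τk 1 = 1 / 3 := by simp [τk]
    exact key 1 (by norm_num) t1 (by rw [e1]; exact ht1) hl1 (by rw [e1]; exact hs1)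
      (by rw [e1]; exact ho1) (by rw [e1]; exact h1.1) (by rw [e1]; exact h1.2)

/-- **The tree families of one class.** `Q` is the class (tops), `P ⊆ Q` the pairs which are to be
covered, with `(z, j - 9) ∈ Q` for all of them. -/
theorem tree_fams {u : ℝ × ℝ → ℝ} (hu : Field u) {n : ℕ} {Q P : ℕ → Set (ℝ × ℝ)} {S H D : ℝ}
    (hS : 2 ≤ S) (hSH : S ≤ H) (hQ : PSys n Q) (hCT : CT u Q S D) (hD : 120 * H ≤ D)
    (hPm : ∀ j, MeasurableSet (P j))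
    (hPc : ∀ z, ∀ i j k : ℕ, i ≤ j → j ≤ k → z ∈ P i → z ∈ P k → z ∈ P j)
    (hPQ : ∀ j, ∀ z ∈ P j, 9 ≤ j ∧ z ∈ Q j ∧ z ∈ Q (j - 9)) :
    ∃ (ι : Fin 334 → Type) (_ : ∀ k, Fintype (ι k)) (τ : Fin 334 → ℝ)
      (s c : ∀ k, ι k → ℝ) (lev : ∀ k, ι k → ℕ) (m : ∀ k, ι k → ℤ)
      (E : ∀ k, ι k → ℕ → Set (ℝ × ℝ)),
      (∀ k, SepFam u (τ k) (S / 128) (S / 2) (H / 2) (32 * H) (s k) (c k) (lev k) (m k) (E k)) ∧
      (∀ k, TopSep (τ k) (S / 2) (32 * H) (s k) (c k) (lev k) (m k)) ∧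
      (∀ k, τ k = 0 ∨ τ k = 1 / 3) ∧
      (∀ k i j, E k i j ⊆ P j) ∧
      (∀ j, ∀ z ∈ P j, ∃ k i, z ∈ E k i j) ∧
      (∀ j z k i k' i', z ∈ E k i j → z ∈ E k' i' j → k = k') := by
  have hH : 1 ≤ H := by linarith
  have hH0 : (0 : ℝ) < H := by linarith
  have hS0 : 0 ≤ S := by linarith
  have hsel : ∀ τ : ℝ, ∃ F wt, Sel u Q S H τ F wt := fun τ =>
    exists_topSel hu hQ hS0 (by linarith) τ
  choose F wt hF using hsel
  have hB0a : 80 * H + 2 * S + 2 ≤ (83 : ℕ) * H := by push_cast; nlinarith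
  have hbD : ∀ k < 334, |((bk 83 k : ℤ) : ℝ) * H| + 33 * H ≤ D := by
    intro k hk
    have h1 := bk_bound (B0 := 83) (k := k) (by omega)
    have h2 : |((bk 83 k : ℤ) : ℝ) * H| ≤ (83 : ℕ) * H := by
      rw [abs_mul, abs_of_pos hH0]
      gcongr
    push_cast at h2
    linarith
  have hbD' : ∀ k < 334, |((bk 83 k : ℤ) : ℝ) * H| + H ≤ D := by
    intro k hk
    have := hbD k hk
    linarith
  refine ⟨fun k => {t // t ∈ F (τk k)}, fun k => inferInstance, fun k => τk k,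
    fun k t => u (wt (τk k) t.1), fun k t => ln u (wt (τk k) t.1) 0 + ((bk 83 k : ℤ) + 1 / 2) * H,
    fun k t => t.1.1, fun k t => q (τk k) t.1.1 (wt (τk k) t.1).1,
    fun k t j => EE0 u P S H 83 F wt k t.1 j, ?_, ?_, ?_, ?_, ?_, ?_⟩
  · rintro ⟨k, hk⟩
    refine ⟨fun t j => EE0.meas hu.meas hPm S H 83 F wt k t.1 j, ?_, ?_, ?_, ?_, ?_, ?_, ?_⟩
    · rintro ⟨t, ht⟩ j ⟨z, hz⟩
      exact hz.2.1.1
    · rintro ⟨t, ht⟩ j z hz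
      exact hz.2.1.2.1
    · rintro ⟨t, ht⟩ j z hz
      have e : z.2 - (ln u (wt (τk k) t) 0 + ((bk 83 k : ℤ) + 1 / 2) * H) -
          u (wt (τk k) t) * z.1 = z.2 - ln u (wt (τk k) t) z.1 - ((bk 83 k : ℤ) + 1 / 2) * H := by
        unfold ln; ring
      show |z.2 - (ln u (wt (τk k) t) 0 + ((bk 83 k : ℤ) + 1 / 2) * H) -
        u (wt (τk k) t) * z.1| ≤ H / 2
      rw [e]
      exact abs_win hz.2.1.2.2.1 hz.2.1.2.2.2.1
    · rintro ⟨t, ht⟩ j z hz x hx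
      exact hz.2.1.inside hx
    · rintro ⟨t, ht⟩ z j k' l' hjk hkl hz hz'
      exact ⟨hPc z j k' l' hjk hkl hz.1 hz'.1, hz.2.1.mono hS0 hjk,
        fun k'' hk'' hav => hz'.2.2 k'' hk'' (hav.mono hS0 hkl)⟩
    · rintro ⟨t, ht⟩ ⟨t', ht'⟩ j j' z hz hz'
      apply Subtype.ext
      rcases le_total j j' with h | h
      · exact avl_unique hS0 hH hCT (hF (τk k)) (hbD' k hk) (hPQ j' z hz'.1).2.1 ht ht'
          (hz.2.1.mono hS0 h) hz'.2.1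
      · exact avl_unique hS0 hH hCT (hF (τk k)) (hbD' k hk) (hPQ j z hz.1).2.1 ht ht'
          hz.2.1 (hz'.2.1.mono hS0 h)
    · rintro ⟨t, ht⟩ ⟨t', ht'⟩ hne j z hz hζ
      exact avl_sep hS0 hH hCT (hF (τk k)) (hbD k hk) (hPQ j z hz.1).2.1 ht ht'
        (fun h => hne (Subtype.ext h)) hz.2.1 hζ
  · rintro ⟨k, hk⟩ ⟨t, ht⟩ ⟨t', ht'⟩ hne ⟨ζ, h1, h2⟩
    exact avl_topsep hS0 hH (hF (τk k)) ht ht' (fun h => hne (Subtype.ext h)) h1 h2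
  · intro k
    show τk k = 0 ∨ τk k = 1 / 3
    unfold τk
    split_ifs <;> simp
  · intro k t j z hz
    exact hz.1
  · -- cover
    intro j z hz
    obtain ⟨h9, -, hz9⟩ := hPQ j z hz
    have hex := exists_avl hS hH hB0a hF h9 hz9
    classical
    let k := Nat.find hex
    obtain ⟨hkK, t, ht, hav⟩ : k < 334 ∧ AvlK u S H 83 F wt k j z := Nat.find_spec hex
    refine ⟨⟨k, hkK⟩, ⟨t, ht⟩, hz, hav, ?_⟩
    intro k' hk' hav'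
    exact Nat.find_min hex hk' ⟨lt_trans hk' hkK, hav'⟩
  · -- uniq
    rintro j z ⟨k, hk⟩ ⟨t, ht⟩ ⟨k', hk'⟩ ⟨t', ht'⟩ hz hz'
    rcases lt_trichotomy k k' with h | h | h
    · exact absurd ⟨t, ht, hz.2.1⟩ (hz'.2.2 k h)
    · exact Fin.ext h
    · exact absurd ⟨t', ht', hz'.2.1⟩ (hz.2.2 k' h)

end Vale.Agent.P112.H788
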