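import Vale.Agent.P112.H314.F.FC
import Vale.Agent.P112.H788.Tree

/-!
# (FF0) part 2: the classes of ratio `6 / 5`, the jump pairs
-/

open MeasureTheory Set
open scoped ENNReal

set_option linter.dupNamespace false
set_option linter.unusedSectionVars false

namespace Vale.Agent.P112.H788

open T F30 FW

variable {κ : Type} [Fintype κ] {M : Tops κ} {u : ℝ × ℝ → ℝ} {S ε D : ℝ}

/-- all pairs over the points of `P` -/
def amb (P : ℕ → Set (ℝ × ℝ)) (n : ℕ) (j : ℕ) : Set (ℝ × ℝ) := {z | j < n ∧ z ∈ Un P n}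

theorem un_meas {n : ℕ} {P : ℕ → Set (ℝ × ℝ)} (hP : ∀ j, MeasurableSet (P j)) :
    MeasurableSet (Un P n) := by
  have e : Un P n = ⋃ j : ℕ, ⋃ _ : j < n, P j := by
    ext z; simp [Un]
  rw [e]
  exact MeasurableSet.iUnion fun j => MeasurableSet.iUnion fun _ => hP j

theorem psys_amb {n : ℕ} {P : ℕ → Set (ℝ × ℝ)} (hP : PSys n P) : PSys n (amb P n) where
  meas j := (MeasurableSet.const _).inter (un_meas hP.meas)
  bdd := by
    obtain ⟨r, hr⟩ := hP.bdd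
    refine ⟨r, ?_⟩
    rintro j z ⟨-, i, -, hz⟩
    exact hr i z hz
  lt j hj := by
    ext z
    simp only [mem_empty_iff_false, iff_false]
    rintro ⟨h, -⟩
    omega
  conv z i j k _ hjk hi hk := ⟨lt_of_le_of_lt hjk hk.1, hi.2⟩

theorem mem_amb {n : ℕ} {P : ℕ → Set (ℝ × ℝ)} (hP : PSys n P) {i j : ℕ} (hij : i ≤ j)
    {z : ℝ × ℝ} (hz : z ∈ P j) : z ∈ amb P n i := by
  have hj : j < n := by
    by_contra hc
    push Not at hc
    rw [hP.lt j hc] at hz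
    exact hz
  exact ⟨by omega, j, hj, hz⟩

theorem PSys.lt' {n : ℕ} {P : ℕ → Set (ℝ × ℝ)} (hP : PSys n P) {j : ℕ} {z : ℝ × ℝ}
    (hz : z ∈ P j) : j < n := by
  by_contra hc
  push Not at hc
  rw [hP.lt j hc] at hz
  exact hz

/-- the class `k` (ratio `36 / 25`) -/
def Cl (M : Tops κ) (u : ℝ × ℝ → ℝ) (S ε : ℝ) (P : ℕ → Set (ℝ × ℝ)) (n : ℕ) (k : ℤ) (j : ℕ) :
    Set (ℝ × ℝ) :=
  {z | z ∈ amb P n j ∧ (6 / 5 : ℝ) ^ k ≤ M.B u S ε z j ∧ M.B u S ε z j < (6 / 5 : ℝ) ^ (k + 2)}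

theorem psys_Cl (hu : Measurable u) (hS : 0 ≤ S) {n : ℕ} {P : ℕ → Set (ℝ × ℝ)} (hP : PSys n P)
    (k : ℤ) : PSys n (Cl M u S ε P n k) where
  meas j := by
    refine ((psys_amb hP).meas j).inter ?_
    exact (measurableSet_le measurable_const (B_meas hu j)).inter
      (measurableSet_lt (B_meas hu j) measurable_const)
  bdd := by
    obtain ⟨r', hr⟩ := (psys_amb hP).bdd
    exact ⟨r', fun j z hz => hr j z hz.1⟩
  lt j hj := by
    ext z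
    simp only [mem_empty_iff_false, iff_false]
    intro hz
    have := hz.1.1
    omega
  conv z i j l hij hjl hi hl :=
    ⟨(psys_amb hP).conv z i j l hij hjl hi.1 hl.1, hi.2.1.trans (B_mono hS hij),
      (B_mono hS hjl).trans_lt hl.2.2⟩

theorem ct_Cl (hS : 0 ≤ S) (hε : 0 ≤ ε) (hD : ε * (2 + D + 2 * S) ≤ 1 / 4) {n : ℕ}
    {P : ℕ → Set (ℝ × ℝ)} (k : ℤ) : CT u (Cl M u S ε P n k) S D := by
  intro j jU jU' z U U' hz hU hU' h1 h2 h3 h4 h5 h6 h7 h8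
  have aU : Abo u S D U jU z j := ⟨h1, h3, h5, h7⟩
  have aU' : Abo u S D U' jU' z j := ⟨h2, h4, h6, h8⟩
  have hpk : (0 : ℝ) < (6 / 5 : ℝ) ^ k := by positivity
  have hlt : M.B u S ε z j < 3 / 2 * (6 / 5 : ℝ) ^ k := by
    have := hz.2.2
    rw [show k + 2 = k + 1 + 1 by ring, zpow_add_one₀ (by norm_num), zpow_add_one₀ (by norm_num)]
      at this
    linarith
  obtain ⟨m, hm, hm'⟩ := common hS hε hD aU aU' hU.2.1 hU'.2.1 hlt
  have e1 : (2 : ℝ) ^ jU ≤ 2 ^ max jU jU' := pow_le_pow_right₀ (by norm_num) (le_max_left _ _)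
  have e2 : (2 : ℝ) ^ jU' ≤ 2 ^ max jU jU' := pow_le_pow_right₀ (by norm_num) (le_max_right _ _)
  have e : u U - u U' = (u U - M.s m) + (M.s m - u U') := by ring
  have h10 : |u U - u U'| ≤ |u U - M.s m| + |M.s m - u U'| := by rw [e]; exact abs_add_le _ _
  have h11 := hm.2
  have h12 := hm'.2
  rw [abs_sub_comm (u U')] at h12
  have h13 := mul_le_mul_of_nonneg_left e1 hS
  have h14 := mul_le_mul_of_nonneg_left e2 hS
  linarith

/-- the slow pairs of the class `k` -/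
def FK (M : Tops κ) (u : ℝ × ℝ → ℝ) (S ε : ℝ) (P : ℕ → Set (ℝ × ℝ)) (k : ℤ) (j : ℕ) :
    Set (ℝ × ℝ) :=
  {z | z ∈ P j ∧ 9 ≤ j ∧ (6 / 5 : ℝ) ^ k ≤ M.B u S ε z (j - 9) ∧
    M.B u S ε z (j - 9) < (6 / 5 : ℝ) ^ (k + 1) ∧ M.B u S ε z j < (6 / 5 : ℝ) ^ (k + 2)}

theorem FK_meas (hu : Measurable u) {n : ℕ} {P : ℕ → Set (ℝ × ℝ)} (hP : PSys n P) (k : ℤ)
    (j : ℕ) : MeasurableSet (FK M u S ε P k j) := by
  refine (hP.meas j).inter ((MeasurableSet.const _).inter ?_)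
  exact (measurableSet_le measurable_const (B_meas hu _)).inter
    ((measurableSet_lt (B_meas hu _) measurable_const).inter
      (measurableSet_lt (B_meas hu j) measurable_const))

theorem FK_conv (hS : 0 ≤ S) {n : ℕ} {P : ℕ → Set (ℝ × ℝ)} (hP : PSys n P) (k : ℤ) :
    ∀ z, ∀ i j l : ℕ, i ≤ j → j ≤ l → z ∈ FK M u S ε P k i → z ∈ FK M u S ε P k l →
      z ∈ FK M u S ε P k j := by
  intro z i j l hij hjl hi hl
  exact ⟨hP.conv z i j l hij hjl hi.1 hl.1, hi.2.1.trans hij,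
    hi.2.2.1.trans (B_mono hS (by omega)), (B_mono hS (by omega)).trans_lt hl.2.2.2.1,
    (B_mono hS hjl).trans_lt hl.2.2.2.2⟩

theorem FK_sub (hS : 0 ≤ S) {n : ℕ} {P : ℕ → Set (ℝ × ℝ)} (hP : PSys n P) {k : ℤ} {j : ℕ}
    {z : ℝ × ℝ} (hz : z ∈ FK M u S ε P k j) :
    9 ≤ j ∧ z ∈ Cl M u S ε P n k j ∧ z ∈ Cl M u S ε P n k (j - 9) := by
  obtain ⟨h1, h2, h3, h4, h5⟩ := hz
  have h6 : (6 / 5 : ℝ) ^ (k + 1) ≤ (6 / 5 : ℝ) ^ (k + 2) :=
    zpow_le_zpow_right₀ (by norm_num) (by omega)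
  exact ⟨h2, ⟨mem_amb hP le_rfl h1, h3.trans (B_mono hS (by omega)), h5⟩,
    ⟨mem_amb hP (by omega) h1, h3, h4.trans_le h6⟩⟩

/-- **the tree families of the class `k`** -/
theorem fams_FK (hu : Field u) (hS : 2 ≤ S) {H : ℝ} (hSH : S ≤ H) (hε : 0 < ε)
    (hεH : ε * (2000 * H) ≤ 1 / 16) {n : ℕ} {P : ℕ → Set (ℝ × ℝ)} (hP : PSys n P) (k : ℤ) :
    ∃ (ι : Fin 334 → Type) (_ : ∀ k, Fintype (ι k)) (τ : Fin 334 → ℝ)
      (s c : ∀ k, ι k → ℝ) (lev : ∀ k, ι k → ℕ) (m : ∀ k, ι k → ℤ)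
      (E : ∀ k, ι k → ℕ → Set (ℝ × ℝ)),
      (∀ k, SepFam u (τ k) (S / 128) (S / 2) (H / 2) (32 * H) (s k) (c k) (lev k) (m k) (E k)) ∧
      (∀ k, TopSep (τ k) (S / 2) (32 * H) (s k) (c k) (lev k) (m k)) ∧
      (∀ k, τ k = 0 ∨ τ k = 1 / 3) ∧
      (∀ b i j, E b i j ⊆ FK M u S ε P k j) ∧
      (∀ j, ∀ z ∈ FK M u S ε P k j, ∃ b i, z ∈ E b i j) ∧
      (∀ j z k i k' i', z ∈ E k i j → z ∈ E k' i' j → k = k') := by
  refine tree_fams hu (D := 120 * H) hS hSH (psys_Cl (M := M) (ε := ε) hu.meas (by linarith) hP k)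
    (ct_Cl (by linarith) hε.le ?_ k) le_rfl (FK_meas hu.meas hP k) (FK_conv (by linarith) hP k)
    (fun j z hz => FK_sub (by linarith) hP hz)
  have h1 : 2 + 120 * H + 2 * S ≤ 2000 * H := by linarith
  have h2 := mul_le_mul_of_nonneg_left h1 hε.le
  linarith

/-- weights of active tops are comparable over a long fat tube -/
theorem tex_gen (hS : 0 ≤ S) {c : ℝ} (hc : 0 ≤ c) {U z : ℝ × ℝ} {a : ℕ} {m : κ}
    (hm : Act M u S U a m) (hx : |z.1 - U.1| ≤ c / 2 ^ a) (hy : |z.2 - ln u U z.1| ≤ D) :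
    tex M m z ≤ tex M m U + (c + D + c * S) := by
  obtain ⟨h2, h3⟩ := hm
  have hpa : (0 : ℝ) < 2 ^ a := by positivity
  have hpi : (0 : ℝ) < 2 ^ M.j m := by positivity
  have hia : (2 : ℝ) ^ M.j m ≤ 2 ^ a := pow_le_pow_right₀ (by norm_num) h2
  have hxa : 2 ^ a * |z.1 - U.1| ≤ c := by
    rw [le_div_iff₀ hpa] at hx
    linarith
  have h6 : 2 ^ M.j m * |z.1 - M.x m| ≤ 2 ^ M.j m * |U.1 - M.x m| + c := by
    have e : z.1 - M.x m = (z.1 - U.1) + (U.1 - M.x m) := by ring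
    have h7 : |z.1 - M.x m| ≤ |z.1 - U.1| + |U.1 - M.x m| := by rw [e]; exact abs_add_le _ _
    have h8 : 2 ^ M.j m * |z.1 - U.1| ≤ 2 ^ a * |z.1 - U.1| :=
      mul_le_mul_of_nonneg_right hia (abs_nonneg _)
    nlinarith
  have h9 : |z.2 - M.line m z.1| ≤ |U.2 - M.line m U.1| + D + c * S := by
    have e : z.2 - M.line m z.1 = (U.2 - M.line m U.1) + (z.2 - ln u U z.1) +
        (u U - M.s m) * (z.1 - U.1) := by
      unfold Tops.line ln
      ring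
    rw [e]
    have h10 : |(u U - M.s m) * (z.1 - U.1)| ≤ c * S := by
      rw [abs_mul]
      calc |u U - M.s m| * |z.1 - U.1| ≤ (S * 2 ^ a) * |z.1 - U.1| :=
            mul_le_mul_of_nonneg_right h3 (abs_nonneg _)
        _ = S * (2 ^ a * |z.1 - U.1|) := by ring
        _ ≤ S * c := mul_le_mul_of_nonneg_left hxa hS
        _ = c * S := by ring
    have h11 := abs_add_three (U.2 - M.line m U.1) (z.2 - ln u U z.1) ((u U - M.s m) * (z.1 - U.1))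
    linarith
  unfold tex
  linarith

theorem w_gen (hS : 0 ≤ S) (hε : 0 ≤ ε) {c : ℝ} (hc : 0 ≤ c) (hD : ε * (c + D + c * S) ≤ 1 / 16)
    {U z : ℝ × ℝ} {a : ℕ} {m : κ} (hm : Act M u S U a m) (hx : |z.1 - U.1| ≤ c / 2 ^ a)
    (hy : |z.2 - ln u U z.1| ≤ D) : 15 / 16 * M.w ε m U ≤ M.w ε m z := by
  have h1 := tex_gen hS hc hm hx hy
  have h2 : -(ε * tex M m U) + -(1 / 16) ≤ -(ε * tex M m z) := by
    have := mul_le_mul_of_nonneg_left h1 hε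
    linarith
  rw [tw_eq, tw_eq]
  calc 15 / 16 * Real.exp (-(ε * tex M m U)) ≤
        Real.exp (-(1 / 16)) * Real.exp (-(ε * tex M m U)) := by
        refine mul_le_mul_of_nonneg_right ?_ (Real.exp_pos _).le
        have := Real.add_one_le_exp (-(1 / 16 : ℝ))
        linarith
    _ = Real.exp (-(ε * tex M m U) + -(1 / 16)) := by rw [← Real.exp_add]; ring_nf
    _ ≤ Real.exp (-(ε * tex M m z)) := Real.exp_le_exp.2 h2

/-- a pair `(U, a)` above `(z, k)` gives a lower bound for the count of `(z, k)` -/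
theorem B_ge (hS : 0 ≤ S) (hε : 0 ≤ ε) {c : ℝ} (hc : 0 ≤ c) (hD : ε * (c + D + c * S) ≤ 1 / 16)
    {U z : ℝ × ℝ} {a k : ℕ} (hak : a + 1 ≤ k) (hs : |u z - u U| ≤ S / 2 * 2 ^ k)
    (hx : |z.1 - U.1| ≤ c / 2 ^ a) (hy : |z.2 - ln u U z.1| ≤ D) :
    15 / 16 * M.B u S ε U a ≤ M.B u S ε z k := by
  classical
  rw [B_eq, B_eq, Finset.mul_sum]
  refine Finset.sum_le_sum fun m _ => ?_
  by_cases h1 : Act M u S U a m
  · have h2 : Act M u S z k m := by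
      obtain ⟨g2, g3⟩ := h1
      refine ⟨g2.trans (by omega), ?_⟩
      have e : u z - M.s m = (u z - u U) + (u U - M.s m) := by ring
      have h4 : (2 : ℝ) ^ a * 2 ≤ 2 ^ k := by
        rw [← pow_succ]
        exact pow_le_pow_right₀ (by norm_num) hak
      have h5 : S * 2 ^ a ≤ S / 2 * 2 ^ k := by nlinarith
      calc |u z - M.s m| ≤ |u z - u U| + |u U - M.s m| := by rw [e]; exact abs_add_le _ _
        _ ≤ S / 2 * 2 ^ k + S * 2 ^ a := add_le_add hs g3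
        _ ≤ S / 2 * 2 ^ k + S / 2 * 2 ^ k := by linarith
        _ = S * 2 ^ k := by ring
    rw [if_pos h1, if_pos h2]
    exact w_gen hS hε hc hD h1 hx hy
  · rw [if_neg h1, mul_zero]
    split_ifs
    · exact (tw_pos M ε m z).le
    · exact le_rfl

theorem B_nonneg (z : ℝ × ℝ) (j : ℕ) : 0 ≤ M.B u S ε z j := by
  classical
  rw [B_eq]
  refine Finset.sum_nonneg fun m _ => ?_
  split_ifs
  · exact (tw_pos M ε m z).le
  · exact le_rfl

/-- the jump pairs of the class `ρ` (ratio `11 / 10`), scales `≡ r` mod `10` -/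
def JP (M : Tops κ) (u : ℝ × ℝ → ℝ) (S ε : ℝ) (P : ℕ → Set (ℝ × ℝ)) (ρ : ℤ) (r j : ℕ) :
    Set (ℝ × ℝ) :=
  {z | z ∈ P j ∧ j % 10 = r ∧ (11 / 10 : ℝ) ^ ρ ≤ M.B u S ε z j ∧
    M.B u S ε z j < (11 / 10 : ℝ) ^ (ρ + 1) ∧ ∀ k : ℤ, z ∉ FK M u S ε P k j}

theorem JP_meas (hu : Measurable u) {n : ℕ} {P : ℕ → Set (ℝ × ℝ)} (hP : PSys n P) (ρ : ℤ)
    (r j : ℕ) : MeasurableSet (JP M u S ε P ρ r j) := by
  have e : JP M u S ε P ρ r j = P j ∩ ({z : ℝ × ℝ | j % 10 = r} ∩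
      ({z | (11 / 10 : ℝ) ^ ρ ≤ M.B u S ε z j} ∩ ({z | M.B u S ε z j < (11 / 10 : ℝ) ^ (ρ + 1)} ∩
      ⋂ k : ℤ, (FK M u S ε P k j)ᶜ))) := by
    ext z
    simp only [JP, mem_inter_iff, mem_iInter, mem_compl_iff, mem_ofPred_eq]
  rw [e]
  exact (hP.meas j).inter ((MeasurableSet.const _).inter
    ((measurableSet_le measurable_const (B_meas hu j)).inter
      ((measurableSet_lt (B_meas hu j) measurable_const).inter
        (MeasurableSet.iInter fun k => (FK_meas hu hP k j).compl))))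

theorem jump_of_not_FK {P : ℕ → Set (ℝ × ℝ)} {j : ℕ} {z : ℝ × ℝ} (hz : z ∈ P j) (hj : 9 ≤ j)
    (h : ∀ k : ℤ, z ∉ FK M u S ε P k j) : 6 / 5 * M.B u S ε z (j - 9) ≤ M.B u S ε z j := by
  rcases (B_nonneg (M := M) (u := u) (S := S) (ε := ε) z (j - 9)).eq_or_lt with h0 | h0
  · rw [← h0, mul_zero]
    exact B_nonneg z j
  · obtain ⟨k, hk1, hk2⟩ := exists_mem_Ico_zpow (x := M.B u S ε z (j - 9)) (y := (6 / 5 : ℝ)) h0
      (by norm_num)
    have h1 : (6 / 5 : ℝ) ^ (k + 2) ≤ M.B u S ε z j := by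
      by_contra hc
      push Not at hc
      exact h k ⟨hz, hj, hk1, hk2, hc⟩
    rw [show k + 2 = k + 1 + 1 by ring, zpow_add_one₀ (by norm_num)] at h1
    linarith

/-- **separation of the jump pairs** -/
theorem JP_sep (hS : 0 ≤ S) (hε : 0 ≤ ε) {c : ℝ} (hc : 0 ≤ c)
    (hD : ε * (c + D + c * S) ≤ 1 / 16) {P : ℕ → Set (ℝ × ℝ)} {ρ : ℤ} {r j j' : ℕ}
    {z z' : ℝ × ℝ} (hz : z ∈ JP M u S ε P ρ r j) (hz' : z' ∈ JP M u S ε P ρ r j')
    (hjj : j' < j) (hx : |z.1 - z'.1| ≤ c / 2 ^ j') (hy : |z.2 - ln u z' z.1| ≤ D) :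
    S / 2 * 2 ^ (j - 9) < |u z - u z'| := by
  by_contra hcon
  push Not at hcon
  have hmod : j % 10 = j' % 10 := hz.2.1.trans hz'.2.1.symm
  have hj : j' + 10 ≤ j := by omega
  have h1 := B_ge (M := M) hS hε hc hD (a := j') (k := j - 9) (by omega) hcon hx hy
  have h2 := jump_of_not_FK hz.1 (by omega) hz.2.2.2.2
  have h3 := hz'.2.2.1
  have h4 := hz.2.2.2.1
  have hp : (0 : ℝ) < (11 / 10 : ℝ) ^ ρ := by positivity
  rw [zpow_add_one₀ (by norm_num)] at h4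
  nlinarith

end Vale.Agent.P112.H788
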