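import Vale.Agent.P112.H788.Dec
import Vale.Agent.P112.H314.G.ClsG

/-!
# (FF0): the literal Prop `R2.StFF0`
-/

open MeasureTheory Set
open scoped ENNReal

set_option linter.dupNamespace false

namespace Vale.Agent.P112.H788

open T F30 R2

theorem pow_ge_exp (t : ℝ) {R : ℕ} (h : 150 * t ≤ R) : Real.exp (25 * t) ≤ (6 / 5 : ℝ) ^ R := by
  have h1 : Real.exp (1 / 6) ≤ 6 / 5 := by
    have h2 := Real.one_sub_inv_le_log_of_pos (by norm_num : (0 : ℝ) < 6 / 5)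
    have h3 : (1 / 6 : ℝ) ≤ Real.log (6 / 5) := by
      refine le_trans (le_of_eq ?_) h2
      norm_num
    calc Real.exp (1 / 6) ≤ Real.exp (Real.log (6 / 5)) := Real.exp_le_exp.2 h3
      _ = 6 / 5 := Real.exp_log (by norm_num)
  calc Real.exp (25 * t) ≤ Real.exp (R * (1 / 6)) := Real.exp_le_exp.2 (by linarith)
    _ = Real.exp (1 / 6) ^ R := Real.exp_nat_mul _ _
    _ ≤ (6 / 5 : ℝ) ^ R := pow_le_pow_left₀ (Real.exp_pos _).le h1 R

theorem exp24 : (8192000000 : ℝ) ≤ Real.exp 24 := by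
  have h1 : (2.7 : ℝ) ≤ Real.exp 1 := by
    have := Real.exp_one_gt_d9
    linarith
  calc (8192000000 : ℝ) ≤ 2.7 ^ 24 := by norm_num
    _ ≤ Real.exp 1 ^ 24 := pow_le_pow_left₀ (by norm_num) h1 24
    _ = Real.exp 24 := by
        rw [← Real.exp_nat_mul]
        norm_num

/-- **(FF0)** = `R2.StFF0` with `C * a0 ≤ H`. -/
theorem stFF0_lit : ∃ C : ℕ, 1 ≤ C ∧ ∀ (u : ℝ × ℝ → ℝ), Field u →
  ∀ E0 : Set (ℝ × ℝ), MeasurableSet E0 → (∃ r : ℝ, ∀ z ∈ E0, |z.1| ≤ r ∧ |z.2| ≤ r) →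
  ∀ (n ν : ℕ) (P : ℕ → Set (ℝ × ℝ)), PSys n P → (∀ j, P j ⊆ Pd u E0 4 n ν j) →
  (∀ j, (P j).Nonempty → C ≤ j) →
  ∀ a0 H X : ℝ, C * 2 ^ ν ≤ a0 → C * a0 ≤ H → 1 ≤ X →
    ∃ (K : ℕ) (F : Fin K → Tr) (G : ∀ k, Cells (F k)) (a : Fin K → ℝ) (R : ℕ → Set (ℝ × ℝ)),
      (K : ℝ) ≤ C * (a0 * (Real.log H + X)) ^ C ∧ (∀ k, a0 ≤ a k ∧ a k ≤ C * a0) ∧
      (∀ k, (F k).Ok u P (a k) (H / 2)) ∧ (∀ k, (G k).Marg) ∧
      (∀ k, (G k).Sep0 u (a k) (32 * H)) ∧
      PSys n R ∧ (∀ j, R j ⊆ P j) ∧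
      volume (Un R n) ≤ ENNReal.ofReal (Real.exp (-X)) * volume E0 ∧ Part P F R := by
  obtain ⟨C0, hC0, hlist⟩ := ClG.exists_list
  obtain ⟨C, hC1, hC2⟩ : ∃ C : ℕ, C0 ≤ C ∧ (1000000000000 : ℝ) ≤ C :=
    ⟨⌈max C0 1000000000000⌉₊, (le_max_left _ _).trans (Nat.le_ceil _),
      (le_max_right _ _).trans (Nat.le_ceil _)⟩
  have hC3 : 9 ≤ C := by
    have : (9 : ℝ) ≤ C := by linarith
    exact_mod_cast this
  refine ⟨C, by omega, ?_⟩
  intro u hu E0 hE0 hE0b n ν P hP hPd hPj a0 H X ha0 haH hX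
  have hp1 : (1 : ℝ) ≤ 2 ^ ν := one_le_pow₀ (by norm_num)
  have hCpos : (0 : ℝ) < C := by linarith
  have ha1 : (C : ℝ) ≤ a0 := by nlinarith
  have h2ν : (2 : ℝ) ^ ν ≤ a0 := by nlinarith
  have hSH : 245760 * a0 ≤ H := by nlinarith
  have hH1 : (1 : ℝ) ≤ H := by linarith
  have hHpos : (0 : ℝ) < H := by linarith
  obtain ⟨ε, hεd⟩ : ∃ ε : ℝ, ε = 1 / (32000 * H) := ⟨_, rfl⟩
  have hε : 0 < ε := by rw [hεd]; positivity
  have hεH : ε * (2000 * H) ≤ 1 / 16 := by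
    rw [hεd]
    refine le_of_eq ?_
    field_simp
    norm_num
  have hεS : ε * (2 + 2 * (245760 * a0)) ≤ 1 / 4 := by
    refine le_trans (mul_le_mul_of_nonneg_left (by linarith : 2 + 2 * (245760 * a0) ≤ 2000 * H)
      hε.le) (hεH.trans (by norm_num))
  obtain ⟨κ, fκ, M, m1, m2, -, m4⟩ := hlist u hu E0 hE0 hE0b n ν (245760 * a0) ε
    (by nlinarith) hε hεS
  obtain ⟨Rn, hRd⟩ : ∃ Rn : ℕ, Rn = ⌈150 * (Real.log H + X)⌉₊ := ⟨_, rfl⟩
  have hlog : 0 ≤ Real.log H := Real.log_nonneg hH1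
  have hR1 : 150 * (Real.log H + X) ≤ Rn := by rw [hRd]; exact Nat.le_ceil _
  have hR2 : (Rn : ℝ) ≤ 151 * (Real.log H + X) := by
    have := Nat.ceil_lt_add_one (by positivity : 0 ≤ 150 * (Real.log H + X))
    rw [← hRd] at this
    linarith
  -- the threshold
  have hT : 4 * (32000 * H) ^ 2 * 2 ^ (ν + 1) * Real.exp X ≤ (6 / 5 : ℝ) ^ Rn := by
    refine le_trans ?_ (pow_ge_exp _ hR1)
    have e1 : Real.exp 24 * H ^ 3 * Real.exp X = Real.exp (24 + 3 * Real.log H + X) := by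
      rw [Real.exp_add, Real.exp_add, show 3 * Real.log H = ((3 : ℕ) : ℝ) * Real.log H by norm_num,
        Real.exp_nat_mul, Real.exp_log hHpos]
    calc 4 * (32000 * H) ^ 2 * 2 ^ (ν + 1) * Real.exp X
        ≤ 4 * (32000 * H) ^ 2 * (2 * H) * Real.exp X := by
          have : (2 : ℝ) ^ (ν + 1) ≤ 2 * H := by rw [pow_succ]; linarith
          gcongr
      _ = 8192000000 * H ^ 3 * Real.exp X := by ring
      _ ≤ Real.exp 24 * H ^ 3 * Real.exp X := by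
          have := exp24
          gcongr
      _ = Real.exp (24 + 3 * Real.log H + X) := e1
      _ ≤ Real.exp (25 * (Real.log H + X)) := Real.exp_le_exp.2 (by linarith)
  have hpos : (0 : ℝ) < (6 / 5) ^ Rn := by positivity
  have hsml := ClG.sml_psys (M := M) (ε := ε) hP ((6 / 5) ^ Rn)
  have hbig := ClG.big_psys (M := M) (ε := ε) hP ((6 / 5) ^ Rn)
  obtain ⟨N, hN, I, fI, F, G, a, d1, d2, d3, d4, d5, d6⟩ := dec_ff0 hu M (a0 := a0) (H := H)
    (ε := ε) (R := Rn) (by norm_num; linarith) hSH hε hεH hsml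
    (fun j z hz => ⟨hC3.trans (hPj j ⟨z, hz.1⟩), by linarith [m4 j z (hPd j hz.1)],
      (FW.B_le_Nw z j).trans hz.2⟩)
  have hI : (Fintype.card I : ℝ) ≤ C * (a0 * (Real.log H + X)) ^ C := by
    have hb : (1 : ℝ) ≤ a0 * (Real.log H + X) := by nlinarith
    calc (Fintype.card I : ℝ) ≤ N := by exact_mod_cast d1
      _ ≤ 14000 * (245760 * a0) * (Rn + 1) := hN
      _ ≤ 14000 * (245760 * a0) * (152 * (Real.log H + X)) := by
          refine mul_le_mul_of_nonneg_left (by linarith) (by linarith)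
      _ = 522977280000 * (a0 * (Real.log H + X)) := by ring
      _ ≤ C * (a0 * (Real.log H + X)) := by
          refine mul_le_mul_of_nonneg_right (by linarith) (by linarith)
      _ ≤ C * (a0 * (Real.log H + X)) ^ C := by
          refine mul_le_mul_of_nonneg_left ?_ hCpos.le
          exact le_self_pow₀ hb (by omega)
  have e := Fintype.equivFin I
  refine ⟨Fintype.card I, fun k => F (e.symm k), fun k => G (e.symm k), fun k => a (e.symm k),
    ClG.big M ε P ((6 / 5) ^ Rn), hI, fun k => ⟨(d2 _).1, (d2 _).2.trans ?_⟩, fun k => ?_,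
    fun k => d4 _, fun k => d5 _, hbig, fun j z hz => hz.1, ?_, ?_⟩
  · exact mul_le_mul_of_nonneg_right (by linarith) (by linarith)
  · have h := d3 (e.symm k)
    exact ⟨h.meas, fun i j z hz => (h.sub i j hz).1, h.slope, h.line, h.conv, h.uniq⟩
  · -- the mass of the rest
    refine (ClG.vol_big (n := n) (P := P) hε hpos).trans ?_
    have h1 : 4 / ε ^ 2 * (∑ m, (1 / 2) ^ M.j m) / (6 / 5) ^ Rn =
        (4 / ε ^ 2 / (6 / 5) ^ Rn) * ∑ m, (1 / 2 : ℝ) ^ M.j m := by ring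
    rw [h1, ENNReal.ofReal_mul (by positivity)]
    refine (mul_le_mul_right m1 _).trans ?_
    rw [← mul_assoc, ← ENNReal.ofReal_mul (by positivity)]
    refine mul_le_mul_left (ENNReal.ofReal_le_ofReal ?_) _
    rw [Real.exp_neg, div_mul_eq_mul_div, div_le_iff₀ hpos, ← div_eq_inv_mul,
      le_div_iff₀ (Real.exp_pos X)]
    refine le_trans (le_of_eq ?_) hT
    rw [hεd]
    field_simp
  · intro j z
    rw [ClG.ind_big (M := M) (ε := ε) ((6 / 5) ^ Rn) j 1 z, d6 j z]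
    congr 1
    exact (Equiv.sum_comp e.symm fun k => ∑ i, ((F k).E i j).indicator (1 : ℝ × ℝ → ℝ) z).symm

/-- the literal Prop of `G/R2.lean` (version 3.1) -/
theorem stFF0_R2 : R2.StFF0 := stFF0_lit

end Vale.Agent.P112.H788
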