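import Vale.Agent.P112.H788.Main
import Vale.Agent.P112.F30.FF0a

/-!
# (FF0) in the objects of `G/R2.lean`: `F30.Dec` of every system with a bounded weighted count
-/

open MeasureTheory Set
open scoped ENNReal

set_option linter.dupNamespace false

namespace Vale.Agent.P112.H788

open T F30 R2

/-- the bridge: one `SepFam` is a weakly separated family of `G/R2.lean` -/
theorem SepFam.tr {ι : Type} [fin : Fintype ι] {u : ℝ × ℝ → ℝ} {P : ℕ → Set (ℝ × ℝ)}
    {τ A G W B a : ℝ} {s c : ι → ℝ} {lev : ι → ℕ} {m : ι → ℤ} {E : ι → ℕ → Set (ℝ × ℝ)}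
    (h : SepFam u τ A G W B s c lev m E) (hsub : ∀ i j, E i j ⊆ P j) (hA : A ≤ a)
    (hG : 60 * a ≤ G) :
    (Tr.mk ι fin s c E).Ok u P a W ∧
    (Cells.mk (F := Tr.mk ι fin s c E) τ lev m).Marg ∧
    (Cells.mk (F := Tr.mk ι fin s c E) τ lev m).Sep0 u a B := by
  refine ⟨⟨h.meas, hsub, fun i j z hz => (h.slope i j z hz).trans ?_, fun i j z hz => ?_, h.conv,
    h.disj⟩, fun i j z hz x hx => h.inside i j z hz x hx, ?_⟩
  · exact mul_le_mul_of_nonneg_right hA (by positivity)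
  · have e : (Tr.mk ι fin s c E).off i z = z.2 - c i - s i * z.1 := by
      simp only [Tr.off]; ring
    rw [e]
    exact h.line i j z hz
  · intro i i' j hne _ z hz hq hoff
    have e : (Tr.mk ι fin s c E).off i' z = z.2 - c i' - s i' * z.1 := by
      simp only [Tr.off]; ring
    rw [e] at hoff
    refine le_trans ?_ (h.sep i i' hne j z hz ⟨hq, hoff⟩)
    exact mul_le_mul_of_nonneg_right hG (by positivity)

/-- **(FF0)**, for every system of bounded weighted count, as `F30.Dec`. -/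
theorem dec_ff0 {u : ℝ × ℝ → ℝ} (hu : Field u) {κ : Type} [Fintype κ] (M : Tops κ) {n : ℕ}
    {P : ℕ → Set (ℝ × ℝ)} {a0 H ε : ℝ} {R : ℕ} (hS : 2 ^ 20 ≤ 245760 * a0)
    (hSH : 245760 * a0 ≤ H) (hε : 0 < ε) (hεH : ε * (2000 * H) ≤ 1 / 16) (hP : PSys n P)
    (hPB : ∀ j, ∀ z ∈ P j, 9 ≤ j ∧ 1 / 2 ≤ M.B u (245760 * a0) ε z j ∧
      M.B u (245760 * a0) ε z j ≤ (6 / 5) ^ R) :
    ∃ N : ℕ, (N : ℝ) ≤ 14000 * (245760 * a0) * (R + 1) ∧
      Dec u P a0 (1920 * a0) (H / 2) (32 * H) N := by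
  have hS1 : (1048576 : ℝ) ≤ 245760 * a0 := by norm_num at hS ⊢; exact hS
  have ha : (1 : ℝ) ≤ a0 := by linarith
  obtain ⟨Λ, fΛ, ι, fι, τ, A, G, s, c, lev, m, E, k1, k2, _, k4, _, k6, k7, k8⟩ :=
    stFF0C u hu κ M n P _ H ε R hS hSH hε hεH hP hPB
  have hG : ∀ k, 60 * max (A k) a0 ≤ G k := by
    intro k
    rcases k4 k with ⟨e, e'⟩ | ⟨e, e'⟩ <;> rw [e, e', max_def] <;> split_ifs <;> linarith
  refine ⟨Fintype.card Λ, k1, Λ, fΛ, fun k => ⟨ι k, fι k, s k, c k, E k⟩,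
    fun k => ⟨τ k, lev k, m k⟩, fun k => max (A k) a0, le_rfl, fun k => ⟨le_max_right _ _, ?_⟩,
    fun k => ?_, fun k => ?_, fun k => ?_, fun j z => ?_⟩
  · refine max_le ?_ (by linarith)
    rcases k4 k with ⟨e, _⟩ | ⟨e, _⟩ <;> rw [e] <;> linarith
  · exact ((k2 k).tr (k6 k) (le_max_left _ _) (hG k)).1
  · exact ((k2 k).tr (k6 k) (le_max_left _ _) (hG k)).2.1
  · exact ((k2 k).tr (k6 k) (le_max_left _ _) (hG k)).2.2
  · by_cases hz : z ∈ P j
    · obtain ⟨k, i, hi⟩ := k7 j z hz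
      rw [indicator_of_mem hz, Pi.one_apply]
      rw [Finset.sum_eq_single k, Finset.sum_eq_single i]
      · change 1 = (E k i j).indicator (1 : ℝ × ℝ → ℝ) z
        rw [indicator_of_mem hi, Pi.one_apply]
      · intro i' _ hne
        refine indicator_of_notMem (fun h' => hne ?_) _
        exact (k2 k).disj i' i j j z h' hi
      · exact fun h' => absurd (Finset.mem_univ _) h'
      · intro k' _ hne
        refine Finset.sum_eq_zero fun i' _ => indicator_of_notMem (fun h' => hne ?_) _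
        exact k8 j z k' i' k i h' hi
      · exact fun h' => absurd (Finset.mem_univ _) h'
    · rw [indicator_of_notMem hz]
      refine (Finset.sum_eq_zero fun k _ => Finset.sum_eq_zero fun i _ =>
        indicator_of_notMem (fun h' => hz (k6 k i j h')) _).symm

end Vale.Agent.P112.H788
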