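import Vale.Agent.P112.H788.Cls

/-!
# (FF0) part 3: the families of the jump pairs (one-tile trees)
-/

open MeasureTheory Set
open scoped ENNReal

set_option linter.dupNamespace false
set_option linter.unusedSectionVars false

namespace Vale.Agent.P112.H788

open T H8 F30 FW

/-- single-scale pairs with separation -/
structure JSys (u : ℝ × ℝ → ℝ) (n : ℕ) (J : ℕ → Set (ℝ × ℝ)) (S H : ℝ) : Prop where
  meas : ∀ j, MeasurableSet (J j)
  bdd : ∃ r : ℝ, ∀ j, ∀ z ∈ J j, |z.1| ≤ r ∧ |z.2| ≤ r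
  lt : ∀ j, ∀ z ∈ J j, j < n
  nine : ∀ j, ∀ z ∈ J j, 9 ≤ j
  gap : ∀ j j' z z', z ∈ J j → z' ∈ J j' → j' < j → j' + 10 ≤ j
  sep : ∀ j j' z z', z ∈ J j → z' ∈ J j' → j' < j → |z.1 - z'.1| ≤ 512 / 2 ^ j' →
    |z.2 - ln u z' z.1| ≤ 80 * H → S / 2 * 2 ^ (j - 9) < |u z - u z'|

theorem JSys.single {u : ℝ × ℝ → ℝ} {n : ℕ} {J : ℕ → Set (ℝ × ℝ)} {S H : ℝ}
    (h : JSys u n J S H) (hS : 0 ≤ S) (hH : 0 ≤ H) {z : ℝ × ℝ} {j j' : ℕ} (hz : z ∈ J j)
    (hz' : z ∈ J j') : j = j' := by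
  have key : ∀ {a b : ℕ}, z ∈ J a → z ∈ J b → ¬ b < a := by
    intro a b ha hb hlt
    have := h.sep a b z z ha hb hlt (by rw [sub_self, abs_zero]; positivity)
      (by unfold ln; rw [sub_self, mul_zero, add_zero, sub_self, abs_zero]; positivity)
    rw [sub_self, abs_zero] at this
    have h2 : 0 ≤ S / 2 * 2 ^ (a - 9) := by positivity
    linarith
  have h1 := key hz hz'
  have h2 := key hz' hz
  omega

/-- slope index -/
noncomputable def ai (u : ℝ × ℝ → ℝ) (j : ℕ) (z : ℝ × ℝ) : ℤ := ⌊u z / 2 ^ j⌋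

/-- offset index -/
noncomputable def oi (u : ℝ × ℝ → ℝ) (H : ℝ) (j : ℕ) (z : ℝ × ℝ) : ℤ :=
  ⌊(z.2 - ai u j z * 2 ^ j * z.1) / H⌋

/-- the grid condition of the colour `g` -/
def gc (g : Fin 2) (j : ℕ) (z : ℝ × ℝ) : Prop :=
  (q 0 (j - 9) (z.1 - 16 / 2 ^ j) = q 0 (j - 9) z.1 ∧
    q 0 (j - 9) (z.1 + 16 / 2 ^ j) = q 0 (j - 9) z.1) ↔ g = 0

/-- the grid of the colour `g` -/
noncomputable def gt (g : Fin 2) : ℝ := if g = 0 then 0 else 1 / 3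

/-- the set of the tile `t` in the colour `(g, a, o)` -/
def EJ (u : ℝ × ℝ → ℝ) (J : ℕ → Set (ℝ × ℝ)) (H : ℝ) (Z : ℕ) (f : Fin 2 × Fin Z × Fin 66)
    (t : ℕ × ℤ × ℤ × ℤ) (j : ℕ) : Set (ℝ × ℝ) :=
  {z | z ∈ J j ∧ j = t.1 ∧ q (gt f.1) (j - 9) z.1 = t.2.1 ∧ ai u j z = t.2.2.1 ∧
    oi u H j z = t.2.2.2 ∧ gc f.1 j z ∧ ai u j z % (Z : ℤ) = (f.2.1 : ℕ) ∧
    oi u H j z % 66 = (f.2.2 : ℕ)}

theorem ai_meas {u : ℝ × ℝ → ℝ} (hu : Measurable u) (j : ℕ) : Measurable (ai u j) :=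
  Int.measurable_floor.comp (hu.div_const _)

theorem oi_meas {u : ℝ × ℝ → ℝ} (hu : Measurable u) (H : ℝ) (j : ℕ) : Measurable (oi u H j) := by
  have h1 : Measurable fun z => ((ai u j z : ℤ) : ℝ) := measurable_from_top.comp (ai_meas hu j)
  exact Int.measurable_floor.comp
    ((measurable_snd.sub ((h1.mul_const _).mul measurable_fst)).div_const _)

theorem gc_meas (g : Fin 2) (j : ℕ) : MeasurableSet {z | gc g j z} := by
  have h0 : Measurable fun z : ℝ × ℝ => q 0 (j - 9) z.1 := (q_meas 0 _).comp measurable_fst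
  have h1 : Measurable fun z : ℝ × ℝ => q 0 (j - 9) (z.1 - 16 / 2 ^ j) :=
    (q_meas 0 _).comp (measurable_fst.sub_const _)
  have h2 : Measurable fun z : ℝ × ℝ => q 0 (j - 9) (z.1 + 16 / 2 ^ j) :=
    (q_meas 0 _).comp (measurable_fst.add_const _)
  have h3 : MeasurableSet {z : ℝ × ℝ | q 0 (j - 9) (z.1 - 16 / 2 ^ j) = q 0 (j - 9) z.1 ∧
      q 0 (j - 9) (z.1 + 16 / 2 ^ j) = q 0 (j - 9) z.1} :=
    (measurableSet_eq_fun h1 h0).inter (measurableSet_eq_fun h2 h0)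
  by_cases hg : g = 0
  · have : {z : ℝ × ℝ | gc g j z} = {z : ℝ × ℝ | q 0 (j - 9) (z.1 - 16 / 2 ^ j) =
        q 0 (j - 9) z.1 ∧ q 0 (j - 9) (z.1 + 16 / 2 ^ j) = q 0 (j - 9) z.1} := by
      ext z; simp [gc, hg]
    rw [this]; exact h3
  · have : {z : ℝ × ℝ | gc g j z} = {z : ℝ × ℝ | q 0 (j - 9) (z.1 - 16 / 2 ^ j) =
        q 0 (j - 9) z.1 ∧ q 0 (j - 9) (z.1 + 16 / 2 ^ j) = q 0 (j - 9) z.1}ᶜ := by
      ext z; simp [gc, hg]
    rw [this]; exact h3.compl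

theorem EJ_meas {u : ℝ × ℝ → ℝ} (hu : Measurable u) {J : ℕ → Set (ℝ × ℝ)}
    (hJ : ∀ j, MeasurableSet (J j)) (H : ℝ) (Z : ℕ) (f : Fin 2 × Fin Z × Fin 66)
    (t : ℕ × ℤ × ℤ × ℤ) (j : ℕ) : MeasurableSet (EJ u J H Z f t j) := by
  have h1 : Measurable fun z : ℝ × ℝ => q (gt f.1) (j - 9) z.1 := (q_meas _ _).comp measurable_fst
  have ha := ai_meas hu j
  have ho := oi_meas hu H j
  have e : EJ u J H Z f t j = J j ∩ ({z : ℝ × ℝ | j = t.1} ∩
      ({z | q (gt f.1) (j - 9) z.1 = t.2.1} ∩ ({z | ai u j z = t.2.2.1} ∩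
      ({z | oi u H j z = t.2.2.2} ∩ ({z | gc f.1 j z} ∩
      ({z | ai u j z % (Z : ℤ) = (f.2.1 : ℕ)} ∩ {z | oi u H j z % 66 = (f.2.2 : ℕ)})))))) := by
    ext z
    simp only [EJ, mem_inter_iff, mem_ofPred_eq]
  rw [e]
  refine (hJ j).inter ((MeasurableSet.const _).inter ((h1 (measurableSet_singleton _)).inter
    ((ha (measurableSet_singleton _)).inter ((ho (measurableSet_singleton _)).inter
      ((gc_meas _ _).inter ?_)))))
  refine MeasurableSet.inter ?_ ?_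
  · exact ha (MeasurableSet.of_discrete (s := {a : ℤ | a % (Z : ℤ) = (f.2.1 : ℕ)}))
  · exact ho (MeasurableSet.of_discrete (s := {a : ℤ | a % 66 = (f.2.2 : ℕ)}))

theorem floor_fin {X : Type*} {s : Set X} {f : X → ℝ} {R : ℝ} (h : ∀ x ∈ s, |f x| ≤ R) :
    ((fun x => ⌊f x⌋) '' s).Finite := by
  obtain ⟨N, hN⟩ := exists_nat_gt (R + 1)
  refine Set.Finite.subset (Set.finite_Icc (-(N : ℤ)) N) ?_
  rintro _ ⟨x, hx, rfl⟩
  obtain ⟨x1, x2⟩ := abs_le.1 (h x hx)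
  have f1 := Int.floor_le (f x)
  have f2 := Int.lt_floor_add_one (f x)
  constructor
  · have : (-(N : ℤ) : ℝ) ≤ ⌊f x⌋ := by push_cast; linarith
    exact_mod_cast this
  · have : ((⌊f x⌋ : ℤ) : ℝ) ≤ (N : ℤ) := by push_cast; linarith
    exact_mod_cast this

theorem EJ_finite {u : ℝ × ℝ → ℝ} (hu : Field u) {n : ℕ} {J : ℕ → Set (ℝ × ℝ)} {S H : ℝ}
    (hH : 1 ≤ H) (hJ : JSys u n J S H) (Z : ℕ) (f : Fin 2 × Fin Z × Fin 66) :
    {t : ℕ × ℤ × ℤ × ℤ | (EJ u J H Z f t t.1).Nonempty}.Finite := by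
  obtain ⟨U, hU⟩ := hu.bdd
  obtain ⟨r, hr⟩ := hJ.bdd
  have hfin : ∀ j : ℕ, (((fun z : ℝ × ℝ => q (gt f.1) (j - 9) z.1) '' J j) ×ˢ
      (((fun z : ℝ × ℝ => ai u j z) '' J j) ×ˢ ((fun z : ℝ × ℝ => oi u H j z) '' J j))).Finite := by
    intro j
    have hp1 : (1 : ℝ) ≤ 2 ^ j := one_le_pow₀ (by norm_num)
    have hua : ∀ z, |u z / 2 ^ j| ≤ |U| := by
      intro z
      rw [abs_div, abs_of_pos (by positivity : (0 : ℝ) < 2 ^ j)]
      exact (div_le_self (abs_nonneg _) hp1).trans ((hU z).trans (le_abs_self _))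
    have hfa : ∀ z, |((ai u j z : ℤ) : ℝ)| ≤ |U| + 1 := by
      intro z
      obtain ⟨x1, x2⟩ := abs_le.1 (hua z)
      have f1 := Int.floor_le (u z / 2 ^ j)
      have f2 := Int.lt_floor_add_one (u z / 2 ^ j)
      unfold ai
      rw [abs_le]; constructor <;> linarith
    refine Set.Finite.prod ?_ (Set.Finite.prod ?_ ?_)
    · refine floor_fin (f := fun z : ℝ × ℝ => 2 ^ (j - 9) * (z.1 - gt f.1))
        (R := 2 ^ (j - 9) * (|r| + |gt f.1|)) ?_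
      intro z hz
      rw [abs_mul, abs_of_pos (by positivity : (0 : ℝ) < 2 ^ (j - 9))]
      have : |z.1 - gt f.1| ≤ |r| + |gt f.1| :=
        (abs_sub _ _).trans (add_le_add ((hr j z hz).1.trans (le_abs_self _)) le_rfl)
      gcongr
    · exact floor_fin (fun z _ => hua z)
    · refine floor_fin (f := fun z : ℝ × ℝ => (z.2 - ai u j z * 2 ^ j * z.1) / H)
        (R := |r| + (|U| + 1) * 2 ^ j * |r|) ?_
      intro z hz
      have hz1 : |z.1| ≤ |r| := (hr j z hz).1.trans (le_abs_self _)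
      have hz2 : |z.2| ≤ |r| := (hr j z hz).2.trans (le_abs_self _)
      rw [abs_div, abs_of_pos (by linarith : (0 : ℝ) < H)]
      refine (div_le_self (abs_nonneg _) hH).trans ?_
      calc |z.2 - ai u j z * 2 ^ j * z.1| ≤ |z.2| + |ai u j z * 2 ^ j * z.1| := abs_sub _ _
        _ ≤ |r| + (|U| + 1) * 2 ^ j * |r| := by
            rw [abs_mul, abs_mul, abs_of_pos (by positivity : (0 : ℝ) < 2 ^ j)]
            have := hfa z
            gcongr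
  have hall : (⋃ j ∈ Finset.range n, ((fun p : ℤ × ℤ × ℤ => (j, p)) ''
      (((fun z : ℝ × ℝ => q (gt f.1) (j - 9) z.1) '' J j) ×ˢ
      (((fun z : ℝ × ℝ => ai u j z) '' J j) ×ˢ ((fun z : ℝ × ℝ => oi u H j z) '' J j))))).Finite :=
    Set.Finite.biUnion (Finset.finite_toSet _) fun j _ => (hfin j).image _
  refine hall.subset ?_
  rintro ⟨j, K, a, o⟩ ⟨z, hz, -, h1, h2, h3, -⟩
  simp only at hz h1 h2 h3
  simp only [mem_iUnion]
  refine ⟨j, Finset.mem_range.2 (hJ.lt j z hz), (K, a, o), ?_, rfl⟩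
  exact ⟨⟨z, hz, h1⟩, ⟨z, hz, h2⟩, ⟨z, hz, h3⟩⟩

/-- slope and offset bounds of a tile -/
theorem tile_bd {u : ℝ × ℝ → ℝ} {H : ℝ} (hH : 0 < H) {j : ℕ} {z : ℝ × ℝ} {a o : ℤ}
    (ha : ai u j z = a) (ho : oi u H j z = o) :
    (a * 2 ^ j ≤ u z ∧ u z < (a + 1) * 2 ^ j) ∧ |u z - a * 2 ^ j| ≤ 2 ^ j ∧
      |z.2 - (o + 1 / 2) * H - a * 2 ^ j * z.1| ≤ H / 2 := by
  have hp : (0 : ℝ) < 2 ^ j := by positivity
  have a1 := Int.floor_le (u z / 2 ^ j)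
  have a2 := Int.lt_floor_add_one (u z / 2 ^ j)
  rw [show ⌊u z / 2 ^ j⌋ = a from ha] at a1 a2
  have o1 := Int.floor_le ((z.2 - ai u j z * 2 ^ j * z.1) / H)
  have o2 := Int.lt_floor_add_one ((z.2 - ai u j z * 2 ^ j * z.1) / H)
  rw [show ⌊(z.2 - ai u j z * 2 ^ j * z.1) / H⌋ = o from ho, ha] at o1 o2
  rw [le_div_iff₀ hp] at a1
  rw [div_lt_iff₀ hp] at a2
  rw [le_div_iff₀ hH] at o1
  rw [div_lt_iff₀ hH] at o2
  refine ⟨⟨a1, a2⟩, ?_, ?_⟩
  · rw [abs_le]; constructor <;> linarith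
  · rw [abs_le]; constructor <;> linarith

theorem modsep {Z : ℕ} {a a' c : ℤ} (h : a % (Z : ℤ) = c) (h' : a' % (Z : ℤ) = c) (hne : a ≠ a') :
    (Z : ℝ) ≤ |(a : ℝ) - a'| := by
  have h1 : (Z : ℤ) ∣ a - a' := (Int.ModEq.dvd (h'.trans h.symm : a' ≡ a [ZMOD Z]))
  by_contra hc
  push Not at hc
  have h2 : |a - a'| < (Z : ℤ) := by
    have : ((|a - a'| : ℤ) : ℝ) < (Z : ℤ) := by push_cast; exact hc
    exact_mod_cast this
  have := Int.eq_zero_of_abs_lt_dvd h1 h2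
  exact hne (by omega)

theorem EJ.inside {u : ℝ × ℝ → ℝ} {n : ℕ} {J : ℕ → Set (ℝ × ℝ)} {S H : ℝ} (hJ : JSys u n J S H)
    {Z : ℕ} {f : Fin 2 × Fin Z × Fin 66} {t : ℕ × ℤ × ℤ × ℤ} {j : ℕ} {z : ℝ × ℝ}
    (hz : z ∈ EJ u J H Z f t j) {x : ℝ} (hx : |x - z.1| ≤ 16 / 2 ^ j) :
    q (gt f.1) (t.1 - 9) x = t.2.1 := by
  obtain ⟨hzJ, rfl, h1, -, -, h2, -⟩ := hz
  obtain ⟨x1, x2⟩ := abs_le.1 hx
  have h9 := hJ.nine _ z hzJ
  by_cases hg : f.1 = 0
  · have h3 := (h2.2 hg)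
    have e : gt f.1 = 0 := by simp [gt, hg]
    rw [e] at h1 ⊢
    rw [h1] at h3
    exact q_between h3.1 h3.2 (by linarith) (by linarith)
  · have h3 : ¬ (q 0 (t.1 - 9) (z.1 - 16 / 2 ^ t.1) = q 0 (t.1 - 9) z.1 ∧
        q 0 (t.1 - 9) (z.1 + 16 / 2 ^ t.1) = q 0 (t.1 - 9) z.1) := fun h => hg (h2.1 h)
    have e : gt f.1 = 1 / 3 := by simp [gt, hg]
    rw [e] at h1 ⊢
    rcases grid_alt (a := t.1 - 9) (b := t.1 - 9) (j := t.1) (by omega) (by omega) rfl h1 with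
      h4 | h4
    · exact absurd h4 h3
    · exact q_between h4.1 h4.2 (by linarith) (by linarith)

/-- the geometric core: two tiles of different scales -/
theorem tile_sep {u : ℝ × ℝ → ℝ} {n : ℕ} {J : ℕ → Set (ℝ × ℝ)} {S H : ℝ} (hJ : JSys u n J S H)
    (hS : 2 ^ 20 ≤ S) (hSH : S ≤ H) {j j' : ℕ} {z z' : ℝ × ℝ} {s' c' : ℝ} (hz : z ∈ J j)
    (hz' : z' ∈ J j') (hne : j ≠ j') (hs' : |u z' - s'| ≤ 2 ^ j')
    (hc' : |z'.2 - c' - s' * z'.1| ≤ H / 2) (hx : |z.1 - z'.1| ≤ 512 / 2 ^ j')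
    (hoff : |z.2 - c' - s' * z.1| ≤ 66 * H) : S / 2048 * 2 ^ max j j' ≤ |u z - s'| := by
  have hp : (0 : ℝ) < 2 ^ j := by positivity
  have hp' : (0 : ℝ) < 2 ^ j' := by positivity
  have h9 := hJ.nine j z hz
  have h9' := hJ.nine j' z' hz'
  by_contra hcon
  push Not at hcon
  rcases lt_or_gt_of_ne hne with hlt | hlt
  · -- `j < j'`
    rw [max_eq_right hlt.le] at hcon
    have hpw : (2 : ℝ) ^ j' = 2 ^ (j' - 9) * 2 ^ 9 := by rw [← pow_add]; congr 1; omega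
    have hle : (2 : ℝ) ^ j ≤ 2 ^ j' := pow_le_pow_right₀ (by norm_num) hlt.le
    have hxx : |z'.1 - z.1| ≤ 512 / 2 ^ j' := by rw [abs_sub_comm]; exact hx
    have h1 := hJ.sep j' j z' z hz' hz hlt (hxx.trans (by gcongr)) ?_
    · have h2 : |u z' - u z| ≤ |u z' - s'| + |s' - u z| := abs_sub_le _ _ _
      rw [abs_sub_comm s'] at h2
      have h3 : (0 : ℝ) < 2 ^ (j' - 9) := by positivity
      rw [hpw] at hcon hs'
      norm_num at hcon hs'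
      nlinarith
    · have e : z'.2 - ln u z z'.1 = (z'.2 - c' - s' * z'.1) - (z.2 - c' - s' * z.1) -
          (u z - s') * (z'.1 - z.1) := by unfold ln; ring
      have h4 : |(u z - s') * (z'.1 - z.1)| ≤ S / 4 := by
        rw [abs_mul]
        calc |u z - s'| * |z'.1 - z.1| ≤ (S / 2048 * 2 ^ j') * (512 / 2 ^ j') := by
              gcongr
          _ = S / 4 := by field_simp; norm_num
      rw [e]
      have h5 := abs_sub (z'.2 - c' - s' * z'.1 - (z.2 - c' - s' * z.1)) ((u z - s') * (z'.1 - z.1))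
      have h6 := abs_sub (z'.2 - c' - s' * z'.1) (z.2 - c' - s' * z.1)
      linarith
  · -- `j' < j`
    rw [max_eq_left hlt.le] at hcon
    have hpw : (2 : ℝ) ^ j = 2 ^ (j - 9) * 2 ^ 9 := by rw [← pow_add]; congr 1; omega
    have hle : (2 : ℝ) ^ j' ≤ 2 ^ j := pow_le_pow_right₀ (by norm_num) hlt.le
    have h1 := hJ.sep j j' z z' hz hz' hlt hx ?_
    · have h2 : |u z - u z'| ≤ |u z - s'| + |s' - u z'| := abs_sub_le _ _ _
      rw [abs_sub_comm s'] at h2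
      have h3 : (0 : ℝ) < 2 ^ (j - 9) := by positivity
      rw [hpw] at hcon hle
      norm_num at hcon hle
      nlinarith
    · have e : z.2 - ln u z' z.1 = (z.2 - c' - s' * z.1) - (z'.2 - c' - s' * z'.1) -
          (u z' - s') * (z.1 - z'.1) := by unfold ln; ring
      have h4 : |(u z' - s') * (z.1 - z'.1)| ≤ 512 := by
        rw [abs_mul]
        calc |u z' - s'| * |z.1 - z'.1| ≤ (2 ^ j') * (512 / 2 ^ j') := by
              gcongr
          _ = 512 := by field_simp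
      rw [e]
      have h5 := abs_sub (z.2 - c' - s' * z.1 - (z'.2 - c' - s' * z'.1)) ((u z' - s') * (z.1 - z'.1))
      have h6 := abs_sub (z.2 - c' - s' * z.1) (z'.2 - c' - s' * z'.1)
      linarith

/-- **the families of a jump system** -/
theorem jump_fams {u : ℝ × ℝ → ℝ} (hu : Field u) {n : ℕ} {J : ℕ → Set (ℝ × ℝ)} {S H : ℝ}
    (hS : 2 ^ 20 ≤ S) (hSH : S ≤ H) (hJ : JSys u n J S H) {Z : ℕ} (hZ : S / 2048 ≤ Z) :
    ∃ (ι : Fin 2 × Fin Z × Fin 66 → Type) (_ : ∀ k, Fintype (ι k))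
      (τ : Fin 2 × Fin Z × Fin 66 → ℝ)
      (s c : ∀ k, ι k → ℝ) (lev : ∀ k, ι k → ℕ) (m : ∀ k, ι k → ℤ)
      (E : ∀ k, ι k → ℕ → Set (ℝ × ℝ)),
      (∀ k, SepFam u (τ k) 1 (S / 4096) (H / 2) (32 * H) (s k) (c k) (lev k) (m k) (E k)) ∧
      (∀ k, TopSep (τ k) (S / 4096) (32 * H) (s k) (c k) (lev k) (m k)) ∧
      (∀ k, τ k = 0 ∨ τ k = 1 / 3) ∧
      (∀ k i j, E k i j ⊆ J j) ∧
      (∀ j, ∀ z ∈ J j, ∃ k i, z ∈ E k i j) ∧
      (∀ j z k i k' i', z ∈ E k i j → z ∈ E k' i' j → k = k') := by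
  classical
  have hH : 1 ≤ H := by linarith
  have hH0 : 0 < H := by linarith
  have hS0 : 0 ≤ S := by linarith
  have hZ0 : 0 < Z := by
    rcases Nat.eq_zero_or_pos Z with h | h
    · rw [h] at hZ; push_cast at hZ; linarith
    · exact h
  let Ff : Fin 2 × Fin Z × Fin 66 → Finset (ℕ × ℤ × ℤ × ℤ) := fun f =>
    (EJ_finite hu hH hJ Z f).toFinset
  have hmem : ∀ f t, t ∈ Ff f ↔ (EJ u J H Z f t t.1).Nonempty := by
    intro f t
    simp only [Ff, Set.Finite.mem_toFinset, mem_ofPred_eq]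
  -- the main separation, between tiles which both have points
  have key : ∀ f, ∀ t ∈ Ff f, ∀ t' ∈ Ff f, t ≠ t' → ∀ z ∈ EJ u J H Z f t t.1,
      q (gt f.1) (t'.1 - 9) z.1 = t'.2.1 →
      |z.2 - (t'.2.2.2 + 1 / 2) * H - t'.2.2.1 * 2 ^ t'.1 * z.1| ≤ 65 * H →
      S / 2048 * 2 ^ t'.1 - 2 ^ t'.1 ≤ |u z - t'.2.2.1 * 2 ^ t'.1| ∧
      S / 2048 * 2 ^ t.1 - 2 ^ t.1 ≤ |u z - t'.2.2.1 * 2 ^ t'.1| := by
    rintro f ⟨j, K, a, o⟩ ht ⟨j', K', a', o'⟩ ht' hne z hz hcell hoff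
    obtain ⟨z', hz'⟩ := (hmem f _).1 ht'
    have hzz := hz
    obtain ⟨hzJ, -, h1, h2, h3, -, h5, h6⟩ := hz
    obtain ⟨hzJ', -, h1', h2', h3', -, h5', h6'⟩ := hz'
    simp only at *
    obtain ⟨⟨b1, b2⟩, b3, b4⟩ := tile_bd hH0 h2 h3
    obtain ⟨⟨b1', b2'⟩, b3', b4'⟩ := tile_bd hH0 h2' h3'
    have h9' := hJ.nine _ z' hzJ'
    have hpj' : (0 : ℝ) < 2 ^ j' := by positivity
    have hpj : (0 : ℝ) < 2 ^ j := by positivity
    rcases eq_or_ne j j' with rfl | hjj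
    · have hKK : K = K' := h1.symm.trans hcell
      rcases eq_or_ne a a' with rfl | haa
      · exfalso
        rcases eq_or_ne o o' with rfl | hoo
        · exact hne (by rw [hKK])
        · rw [h3] at h6
          rw [h3'] at h6'
          have h7 := modsep (Z := 66) (a := o) (a' := o') (c := (f.2.2 : ℕ)) h6 h6' hoo
          push_cast at h7
          have e : ((o : ℝ) - o') * H = (z.2 - (o' + 1 / 2) * H - a * 2 ^ j * z.1) -
              (z.2 - (o + 1 / 2) * H - a * 2 ^ j * z.1) := by ring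
          have h8 : |((o : ℝ) - o') * H| ≤ 65 * H + H / 2 := by
            rw [e]
            exact (abs_sub _ _).trans (add_le_add hoff b4)
          rw [abs_mul, abs_of_pos hH0] at h8
          nlinarith
      · rw [h2] at h5
        rw [h2'] at h5'
        have h7 := modsep (Z := Z) (a := a) (a' := a') (c := (f.2.1 : ℕ)) h5 h5' haa
        have h8 : (Z : ℝ) * 2 ^ j ≤ |(a : ℝ) * 2 ^ j - a' * 2 ^ j| := by
          rw [← sub_mul, abs_mul, abs_of_pos hpj]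
          gcongr
        have h10 : |(a : ℝ) * 2 ^ j - a' * 2 ^ j| ≤ |(a : ℝ) * 2 ^ j - u z| +
            |u z - a' * 2 ^ j| := abs_sub_le _ _ _
        rw [abs_sub_comm ((a : ℝ) * 2 ^ j) (u z)] at h10
        have h11 : S / 2048 * 2 ^ j ≤ Z * 2 ^ j := by gcongr
        constructor <;> linarith
    · have hx : |z.1 - z'.1| ≤ 512 / 2 ^ j' := by
        have h7 := q_close (hcell.trans h1'.symm)
        refine h7.trans (le_of_eq ?_)
        have hpw : (2 : ℝ) ^ j' = 2 ^ (j' - 9) * 2 ^ 9 := by rw [← pow_add]; congr 1; omega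
        rw [hpw]
        field_simp
        norm_num
      have h8 := tile_sep hJ hS hSH hzJ hzJ' hjj b3' b4' hx (hoff.trans (by linarith))
      have g1 : (2 : ℝ) ^ j ≤ 2 ^ max j j' := pow_le_pow_right₀ (by norm_num) (le_max_left _ _)
      have g2 : (2 : ℝ) ^ j' ≤ 2 ^ max j j' := pow_le_pow_right₀ (by norm_num) (le_max_right _ _)
      have g3 : S / 2048 * 2 ^ j ≤ S / 2048 * 2 ^ max j j' := by gcongr
      have g4 : S / 2048 * 2 ^ j' ≤ S / 2048 * 2 ^ max j j' := by gcongr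
      constructor <;> linarith
  refine ⟨fun f => {t // t ∈ Ff f}, fun f => inferInstance, fun f => gt f.1,
    fun f t => t.1.2.2.1 * 2 ^ t.1.1, fun f t => (t.1.2.2.2 + 1 / 2) * H,
    fun f t => t.1.1 - 9, fun f t => t.1.2.1, fun f t j => EJ u J H Z f t.1 j, ?_, ?_, ?_, ?_, ?_, ?_⟩
  · intro f
    refine ⟨fun t j => EJ_meas hu.meas hJ.meas H Z f t.1 j, ?_, ?_, ?_, ?_, ?_, ?_, ?_⟩
    · rintro ⟨t, ht⟩ j ⟨z, hz⟩
      have h9 := hJ.nine j z hz.1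
      have hj : j = t.1 := hz.2.1
      show t.1 - 9 + 9 ≤ j
      omega
    · rintro ⟨t, ht⟩ j z hz
      obtain ⟨-, hj, -, h2, h3, -⟩ := hz
      have hj' : j = t.1 := hj
      subst hj'
      rw [one_mul]
      exact (tile_bd hH0 h2 h3).2.1
    · rintro ⟨t, ht⟩ j z hz
      obtain ⟨-, hj, -, h2, h3, -⟩ := hz
      have hj' : j = t.1 := hj
      subst hj'
      exact (tile_bd hH0 h2 h3).2.2
    · rintro ⟨t, ht⟩ j z hz x hx
      exact EJ.inside hJ hz hx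
    · rintro ⟨t, ht⟩ z j k l hjk hkl hz hz'
      have h1 : j = t.1 := hz.2.1
      have h2 : l = t.1 := hz'.2.1
      have h3 : k = j := by omega
      rw [h3]; exact hz
    · rintro ⟨t, ht⟩ ⟨t', ht'⟩ j j' z hz hz'
      have hjj : j = j' := hJ.single hS0 hH0.le hz.1 hz'.1
      subst hjj
      obtain ⟨-, e1, e2, e3, e4, -⟩ := hz
      obtain ⟨-, e1', e2', e3', e4', -⟩ := hz'
      apply Subtype.ext
      exact Prod.ext (e1.symm.trans e1') (Prod.ext (e2.symm.trans e2')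
        (Prod.ext (e3.symm.trans e3') (e4.symm.trans e4')))
    · rintro ⟨t, ht⟩ ⟨t', ht'⟩ hne j z hz hζ
      have hj : j = t.1 := hz.2.1
      subst hj
      have h1 := (key f t ht t' ht' (fun h => hne (Subtype.ext h)) z hz hζ.1
        (hζ.2.trans (by linarith))).2
      have hp : (0 : ℝ) < 2 ^ t.1 := by positivity
      have h2 : S / 4096 * 2 ^ t.1 ≤ S / 2048 * 2 ^ t.1 - 2 ^ t.1 := by
        have : S / 4096 ≤ S / 2048 - 1 := by norm_num at hS; linarith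
        nlinarith
      exact h2.trans h1
  · rintro f ⟨t, ht⟩ ⟨t', ht'⟩ hne ⟨ζ, h1, h2⟩
    have hne' : t ≠ t' := fun h => hne (Subtype.ext h)
    -- wlog the level of `t` is at least the level of `t'`
    have main : ∀ t ∈ Ff f, ∀ t' ∈ Ff f, t ≠ t' → t'.1 ≤ t.1 →
        ζ ∈ Top (gt f.1) (t.1 - 9) t.2.1 (t.2.2.1 * 2 ^ t.1) ((t.2.2.2 + 1 / 2) * H) (32 * H) →
        ζ ∈ Top (gt f.1) (t'.1 - 9) t'.2.1 (t'.2.2.1 * 2 ^ t'.1) ((t'.2.2.2 + 1 / 2) * H)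
          (32 * H) →
        S / 4096 * 2 ^ (t.1 - 9) ≤ |(t.2.2.1 : ℝ) * 2 ^ t.1 - t'.2.2.1 * 2 ^ t'.1| := by
      intro t ht t' ht' hne hle g1 g2
      obtain ⟨z, hz⟩ := (hmem f t).1 ht
      have hzz := hz
      obtain ⟨hzJ, -, e1, e2, e3, -⟩ := hz
      obtain ⟨-, b3, b4⟩ := tile_bd hH0 e2 e3
      have h9 := hJ.nine _ z hzJ
      by_contra hcon
      push Not at hcon
      have hp : (0 : ℝ) < 2 ^ (t.1 - 9) := by positivity
      have hpw : (2 : ℝ) ^ t.1 = 2 ^ (t.1 - 9) * 2 ^ 9 := by rw [← pow_add]; congr 1; omega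
      have hcell : q (gt f.1) (t'.1 - 9) z.1 = t'.2.1 := by
        rw [← g2.1]
        refine q_nest_le (i := t'.1 - 9) (j := t.1 - 9) (by omega) ?_
        exact e1.trans g1.1.symm
      have hx := q_close (e1.trans g1.1.symm)
      have hoff : |z.2 - (t'.2.2.2 + 1 / 2) * H - t'.2.2.1 * 2 ^ t'.1 * z.1| ≤ 65 * H := by
        have e : z.2 - (t'.2.2.2 + 1 / 2) * H - t'.2.2.1 * 2 ^ t'.1 * z.1 =
            (z.2 - (t.2.2.2 + 1 / 2) * H - t.2.2.1 * 2 ^ t.1 * z.1) -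
            (ζ.2 - (t.2.2.2 + 1 / 2) * H - t.2.2.1 * 2 ^ t.1 * ζ.1) +
            (ζ.2 - (t'.2.2.2 + 1 / 2) * H - t'.2.2.1 * 2 ^ t'.1 * ζ.1) +
            (t.2.2.1 * 2 ^ t.1 - t'.2.2.1 * 2 ^ t'.1) * (z.1 - ζ.1) := by ring
        have h4 : |((t.2.2.1 : ℝ) * 2 ^ t.1 - t'.2.2.1 * 2 ^ t'.1) * (z.1 - ζ.1)| ≤ S / 4096 := by
          rw [abs_mul]
          calc _ ≤ (S / 4096 * 2 ^ (t.1 - 9)) * (1 / 2 ^ (t.1 - 9)) := by
                gcongr
            _ = S / 4096 := by field_simp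
        rw [e]
        have h5 := abs_add_le ((z.2 - (t.2.2.2 + 1 / 2) * H - t.2.2.1 * 2 ^ t.1 * z.1) -
            (ζ.2 - (t.2.2.2 + 1 / 2) * H - t.2.2.1 * 2 ^ t.1 * ζ.1) +
            (ζ.2 - (t'.2.2.2 + 1 / 2) * H - t'.2.2.1 * 2 ^ t'.1 * ζ.1))
            (((t.2.2.1 : ℝ) * 2 ^ t.1 - t'.2.2.1 * 2 ^ t'.1) * (z.1 - ζ.1))
        have h6 := abs_add_le ((z.2 - (t.2.2.2 + 1 / 2) * H - t.2.2.1 * 2 ^ t.1 * z.1) -
            (ζ.2 - (t.2.2.2 + 1 / 2) * H - t.2.2.1 * 2 ^ t.1 * ζ.1))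
            (ζ.2 - (t'.2.2.2 + 1 / 2) * H - t'.2.2.1 * 2 ^ t'.1 * ζ.1)
        have h7 := abs_sub (z.2 - (t.2.2.2 + 1 / 2) * H - t.2.2.1 * 2 ^ t.1 * z.1)
            (ζ.2 - (t.2.2.2 + 1 / 2) * H - t.2.2.1 * 2 ^ t.1 * ζ.1)
        have h8 := g1.2
        have h10 := g2.2
        linarith
      have h11 := (key f t ht t' ht' hne z hzz hcell hoff).2
      have h12 : |u z - t'.2.2.1 * 2 ^ t'.1| ≤ |u z - t.2.2.1 * 2 ^ t.1| +
          |(t.2.2.1 : ℝ) * 2 ^ t.1 - t'.2.2.1 * 2 ^ t'.1| := abs_sub_le _ _ _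
      have hS' : (1048576 : ℝ) ≤ S := by norm_num at hS; exact hS
      have h13 : (S / 4 - 1024) * 2 ^ (t.1 - 9) ≤ S / 4096 * 2 ^ (t.1 - 9) := by
        have h14 : S / 2048 * 2 ^ t.1 - 2 ^ t.1 ≤ 2 ^ t.1 + S / 4096 * 2 ^ (t.1 - 9) := by
          linarith
        rw [hpw] at h14
        norm_num at h14
        linarith
      have h15 := le_of_mul_le_mul_right h13 hp
      linarith
    rcases le_total t'.1 t.1 with h | h
    · have e : max (t.1 - 9) (t'.1 - 9) = t.1 - 9 := max_eq_left (by omega)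
      show S / 4096 * 2 ^ max (t.1 - 9) (t'.1 - 9) ≤ _
      rw [e]
      exact main t ht t' ht' hne' h h1 h2
    · have e : max (t.1 - 9) (t'.1 - 9) = t'.1 - 9 := max_eq_right (by omega)
      show S / 4096 * 2 ^ max (t.1 - 9) (t'.1 - 9) ≤ _
      rw [e, abs_sub_comm]
      exact main t' ht' t ht (Ne.symm hne') h h2 h1
  · intro f
    show gt f.1 = 0 ∨ gt f.1 = 1 / 3
    unfold gt
    split_ifs <;> simp
  · intro f t j z hz
    exact hz.1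
  · -- cover
    intro j z hz
    have hZi : (0 : ℤ) < Z := by exact_mod_cast hZ0
    have a0 := Int.emod_nonneg (ai u j z) hZi.ne'
    have a1 := Int.emod_lt_of_pos (ai u j z) hZi
    have o0 := Int.emod_nonneg (oi u H j z) (by norm_num : (66 : ℤ) ≠ 0)
    have o1 := Int.emod_lt_of_pos (oi u H j z) (by norm_num : (0 : ℤ) < 66)
    obtain ⟨g, hg⟩ : ∃ g : Fin 2, gc g j z := by
      by_cases h : (q 0 (j - 9) (z.1 - 16 / 2 ^ j) = q 0 (j - 9) z.1 ∧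
          q 0 (j - 9) (z.1 + 16 / 2 ^ j) = q 0 (j - 9) z.1)
      · exact ⟨0, by simp only [gc, h]; simp⟩
      · exact ⟨1, by simp only [gc, h]; simp⟩
    let f : Fin 2 × Fin Z × Fin 66 := (g, ⟨(ai u j z % (Z : ℤ)).toNat, by omega⟩,
      ⟨(oi u H j z % 66).toNat, by omega⟩)
    let t : ℕ × ℤ × ℤ × ℤ := (j, q (gt g) (j - 9) z.1, ai u j z, oi u H j z)
    have hzE : z ∈ EJ u J H Z f t j := by
      refine ⟨hz, rfl, rfl, rfl, rfl, hg, ?_, ?_⟩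
      · show ai u j z % (Z : ℤ) = ((ai u j z % (Z : ℤ)).toNat : ℕ)
        omega
      · show oi u H j z % 66 = ((oi u H j z % 66).toNat : ℕ)
        omega
    exact ⟨f, ⟨t, (hmem f t).2 ⟨z, hzE⟩⟩, hzE⟩
  · -- uniq
    rintro j z ⟨g, a, o⟩ ⟨t, ht⟩ ⟨g', a', o'⟩ ⟨t', ht'⟩ hz hz'
    obtain ⟨-, -, -, -, -, e1, e2, e3⟩ := hz
    obtain ⟨-, -, -, -, -, e1', e2', e3'⟩ := hz'
    simp only at e1 e2 e3 e1' e2' e3'
    have ha : (a : ℕ) = a' := by have := e2.symm.trans e2'; exact_mod_cast this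
    have ho : (o : ℕ) = o' := by have := e3.symm.trans e3'; exact_mod_cast this
    have hg : g = g' := by
      have h : g = 0 ↔ g' = 0 := e1.symm.trans e1'
      omega
    rw [hg, Fin.ext ha, Fin.ext ho]

end Vale.Agent.P112.H788
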