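import Vale.Agent.P112.H788.Jump

/-!
# (FF0) part 4: the theorem
-/

open MeasureTheory Set
open scoped ENNReal

set_option linter.dupNamespace false
set_option linter.unusedSectionVars false

namespace Vale.Agent.P112.H788

open T H8 F30 FW

variable {κ : Type} [Fintype κ] {M : Tops κ} {u : ℝ × ℝ → ℝ} {S ε D : ℝ}

theorem jsys_JP (hu : Field u) (hS : 2 ^ 20 ≤ S) {H : ℝ} (hSH : S ≤ H) (hε : 0 < ε)
    (hεH : ε * (2000 * H) ≤ 1 / 16) {n : ℕ} {P : ℕ → Set (ℝ × ℝ)} (hP : PSys n P)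
    (h9 : ∀ j, ∀ z ∈ P j, 9 ≤ j) (ρ : ℤ) (r : ℕ) : JSys u n (JP M u S ε P ρ r) S H where
  meas := JP_meas hu.meas hP ρ r
  bdd := by
    obtain ⟨R, hR⟩ := hP.bdd
    exact ⟨R, fun j z hz => hR j z hz.1⟩
  lt j z hz := PSys.lt' hP hz.1
  nine j z hz := h9 j z hz.1
  gap j j' z z' hz hz' hlt := by
    have h1 := hz.2.1
    have h2 := hz'.2.1
    omega
  sep j j' z z' hz hz' hlt hx hy := by
    have hS1 : (1048576 : ℝ) ≤ S := by norm_num at hS; exact hS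
    refine JP_sep (c := 512) (D := 80 * H) (by linarith) hε.le (by norm_num) ?_ hz hz' hlt hx hy
    have h1 : 512 + 80 * H + 512 * S ≤ 2000 * H := by linarith
    have h2 := mul_le_mul_of_nonneg_left h1 hε.le
    linarith

theorem zk_unique {b x : ℝ} (hb : 1 < b) {k k' : ℤ} (h1 : b ^ k ≤ x) (h2 : x < b ^ (k + 1))
    (h1' : b ^ k' ≤ x) (h2' : x < b ^ (k' + 1)) : k = k' := by
  have e1 : b ^ k < b ^ (k' + 1) := h1.trans_lt h2'
  have e2 : b ^ k' < b ^ (k + 1) := h1'.trans_lt h2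
  rw [zpow_lt_zpow_iff_right₀ hb] at e1 e2
  omega

/-- `StFF0` with the explicit constant `C`. -/
def StFF0C (C : ℝ) : Prop :=
  ∀ (u : ℝ × ℝ → ℝ), Field u → ∀ (κ : Type) [Fintype κ] (M : Tops κ) (n : ℕ)
    (P : ℕ → Set (ℝ × ℝ)) (S H ε : ℝ) (R : ℕ), 2 ^ 20 ≤ S → S ≤ H → 0 < ε →
    ε * (2000 * H) ≤ 1 / 16 → PSys n P →
    (∀ j, ∀ z ∈ P j, 9 ≤ j ∧ 1 / 2 ≤ M.B u S ε z j ∧ M.B u S ε z j ≤ (6 / 5) ^ R) →
    ∃ (Λ : Type) (_ : Fintype Λ) (ι : Λ → Type) (_ : ∀ k, Fintype (ι k)) (τ A G : Λ → ℝ)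
      (s c : ∀ k, ι k → ℝ) (lev : ∀ k, ι k → ℕ) (m : ∀ k, ι k → ℤ)
      (E : ∀ k, ι k → ℕ → Set (ℝ × ℝ)),
      (Fintype.card Λ : ℝ) ≤ C * S * (R + 1) ∧
      (∀ k, SepFam u (τ k) (A k) (G k) (H / 2) (32 * H) (s k) (c k) (lev k) (m k) (E k)) ∧
      (∀ k, TopSep (τ k) (G k) (32 * H) (s k) (c k) (lev k) (m k)) ∧
      (∀ k, (A k = S / 128 ∧ G k = S / 2) ∨ (A k = 1 ∧ G k = S / 4096)) ∧
      (∀ k, τ k = 0 ∨ τ k = 1 / 3) ∧
      (∀ k i j, E k i j ⊆ P j) ∧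
      (∀ j, ∀ z ∈ P j, ∃ k i, z ∈ E k i j) ∧
      (∀ j z k i k' i', z ∈ E k i j → z ∈ E k' i' j → k = k')

/-- **(FF0)**, constant `14000`. -/
theorem stFF0C : StFF0C 14000 := by
  intro u hu κ _ M n P S H ε R hS hSH hε hεH hP hPB
  have hS1 : (1048576 : ℝ) ≤ S := by norm_num at hS; exact hS
  have hS0 : 0 ≤ S := by linarith
  obtain ⟨Z, hZdef⟩ : ∃ Z : ℕ, Z = ⌈S / 2048⌉₊ := ⟨_, rfl⟩
  have hZ1 : S / 2048 ≤ Z := by rw [hZdef]; exact Nat.le_ceil _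
  have hZ2 : (Z : ℝ) ≤ S := by
    have := Nat.ceil_lt_add_one (by positivity : 0 ≤ S / 2048)
    rw [← hZdef] at this
    linarith
  have hA := fun k : ℤ => fams_FK (M := M) hu (by linarith : 2 ≤ S) hSH hε hεH hP k
  choose ι1 fι1 τ1 s1 c1 l1 m1 E1 A1 A2 A3 A4 A5 A6 using hA
  have hB := fun (ρ : ℤ) (r : ℕ) => jump_fams hu hS hSH
    (jsys_JP (M := M) hu hS hSH hε hεH hP (fun j z hz => (hPB j z hz).1) ρ r) hZ1
  choose ι2 fι2 τ2 s2 c2 l2 m2 E2 B1 B2 B3 B4 B5 B6 using hB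
  refine ⟨(Fin (R + 6) × Fin 334) ⊕ (Fin (2 * R + 9) × Fin 10 × (Fin 2 × Fin Z × Fin 66)),
    inferInstance,
    Sum.elim (fun k => ι1 ((k.1 : ℕ) - 5 : ℤ) k.2) (fun k => ι2 ((k.1 : ℕ) - 8 : ℤ) k.2.1 k.2.2),
    ?_,
    Sum.elim (fun k => τ1 ((k.1 : ℕ) - 5 : ℤ) k.2) (fun k => τ2 ((k.1 : ℕ) - 8 : ℤ) k.2.1 k.2.2),
    Sum.elim (fun _ => S / 128) (fun _ => 1),
    Sum.elim (fun _ => S / 2) (fun _ => S / 4096),
    fun k => match k with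
      | Sum.inl k => s1 ((k.1 : ℕ) - 5 : ℤ) k.2
      | Sum.inr k => s2 ((k.1 : ℕ) - 8 : ℤ) k.2.1 k.2.2,
    fun k => match k with
      | Sum.inl k => c1 ((k.1 : ℕ) - 5 : ℤ) k.2
      | Sum.inr k => c2 ((k.1 : ℕ) - 8 : ℤ) k.2.1 k.2.2,
    fun k => match k with
      | Sum.inl k => l1 ((k.1 : ℕ) - 5 : ℤ) k.2
      | Sum.inr k => l2 ((k.1 : ℕ) - 8 : ℤ) k.2.1 k.2.2,
    fun k => match k with
      | Sum.inl k => m1 ((k.1 : ℕ) - 5 : ℤ) k.2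
      | Sum.inr k => m2 ((k.1 : ℕ) - 8 : ℤ) k.2.1 k.2.2,
    fun k => match k with
      | Sum.inl k => E1 ((k.1 : ℕ) - 5 : ℤ) k.2
      | Sum.inr k => E2 ((k.1 : ℕ) - 8 : ℤ) k.2.1 k.2.2,
    ?_, ?_, ?_, ?_, ?_, ?_, ?_, ?_⟩
  · rintro (k | k)
    · exact fι1 _ _
    · exact fι2 _ _ _
  · -- the number of families
    simp only [Fintype.card_sum, Fintype.card_prod, Fintype.card_fin]
    push_cast
    have hR : (0 : ℝ) ≤ R := Nat.cast_nonneg R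
    have h1 : ((R : ℝ) + 6) * 334 ≤ 2004 * S * (R + 1) := by nlinarith
    have h2 : (2 * (R : ℝ) + 9) * (10 * (2 * (Z * 66))) ≤ 11880 * S * (R + 1) := by
      have h3 : (2 * (R : ℝ) + 9) ≤ 9 * (R + 1) := by linarith
      calc (2 * (R : ℝ) + 9) * (10 * (2 * (Z * 66))) ≤ (9 * (R + 1)) * (10 * (2 * (S * 66))) := by
            gcongr
        _ = 11880 * S * (R + 1) := by ring
    nlinarith
  · rintro (k | k)
    · exact A1 _ _
    · exact B1 _ _ _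
  · rintro (k | k)
    · exact A2 _ _
    · exact B2 _ _ _
  · rintro (k | k)
    · exact Or.inl ⟨rfl, rfl⟩
    · exact Or.inr ⟨rfl, rfl⟩
  · rintro (k | k)
    · exact A3 _ _
    · exact B3 _ _ _
  · rintro (k | k) i j z hz
    · exact (A4 _ _ _ _ hz).1
    · exact (B4 _ _ _ _ _ hz).1
  · -- cover
    intro j z hz
    obtain ⟨h9, hlo, hhi⟩ := hPB j z hz
    by_cases hk : ∃ k : ℤ, z ∈ FK M u S ε P k j
    · obtain ⟨k, hk⟩ := hk
      have hkR : k ≤ R := by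
        have h1 : (6 / 5 : ℝ) ^ k ≤ (6 / 5 : ℝ) ^ (R : ℤ) := by
          rw [zpow_natCast]
          exact hk.2.2.1.trans ((B_mono hS0 (by omega)).trans hhi)
        exact (zpow_le_zpow_iff_right₀ (by norm_num)).1 h1
      have hk5 : -5 ≤ k := by
        by_contra hc
        push Not at hc
        have h1 : (6 / 5 : ℝ) ^ (k + 2) ≤ (6 / 5 : ℝ) ^ (-4 : ℤ) :=
          zpow_le_zpow_right₀ (by norm_num) (by omega)
        have h2 := hk.2.2.2.2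
        norm_num at h1
        linarith
      obtain ⟨i, hi⟩ : ∃ i : ℕ, (i : ℤ) = k + 5 := ⟨(k + 5).toNat, by omega⟩
      have hik : ((i : ℤ) - 5 : ℤ) = k := by omega
      obtain ⟨b, t, hb⟩ := A5 ((i : ℤ) - 5) j z (by rw [hik]; exact hk)
      exact ⟨Sum.inl (⟨i, by omega⟩, b), t, hb⟩
    · push Not at hk
      have hpos : 0 < M.B u S ε z j := by linarith
      obtain ⟨ρ, hr1, hr2⟩ := exists_mem_Ico_zpow (x := M.B u S ε z j) (y := (11 / 10 : ℝ)) hpos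
        (by norm_num)
      have hrR : ρ ≤ 2 * R := by
        have h0 : (6 / 5 : ℝ) ^ R ≤ (11 / 10 : ℝ) ^ (2 * R : ℤ) := by
          have e : (11 / 10 : ℝ) ^ (2 * R : ℤ) = ((11 / 10 : ℝ) ^ 2) ^ R := by
            rw [← pow_mul, ← zpow_natCast]
            push_cast
            rfl
          rw [e]
          exact pow_le_pow_left₀ (by norm_num) (by norm_num) R
        exact (zpow_le_zpow_iff_right₀ (by norm_num)).1 (hr1.trans (hhi.trans h0))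
      have hr8 : -8 ≤ ρ := by
        by_contra hc
        push Not at hc
        have h1 : (11 / 10 : ℝ) ^ (ρ + 1) ≤ (11 / 10 : ℝ) ^ (-8 : ℤ) :=
          zpow_le_zpow_right₀ (by norm_num) (by omega)
        norm_num at h1
        linarith
      obtain ⟨i, hi⟩ : ∃ i : ℕ, (i : ℤ) = ρ + 8 := ⟨(ρ + 8).toNat, by omega⟩
      have hik : ((i : ℤ) - 8 : ℤ) = ρ := by omega
      have hJ : z ∈ JP M u S ε P ((i : ℤ) - 8) (j % 10) j := by
        rw [hik]; exact ⟨hz, rfl, hr1, hr2, hk⟩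
      obtain ⟨b, t, hb⟩ := B5 ((i : ℤ) - 8) (j % 10) j z hJ
      exact ⟨Sum.inr (⟨i, by omega⟩, ⟨j % 10, Nat.mod_lt _ (by norm_num)⟩, b), t, hb⟩
  · -- uniq
    rintro j z (⟨a, b⟩ | ⟨a, r, b⟩) i (⟨a', b'⟩ | ⟨a', r', b'⟩) i' hz hz'
    · have h1 := A4 _ _ _ _ hz
      have h2 := A4 _ _ _ _ hz'
      have h3 : ((a : ℕ) : ℤ) - 5 = ((a' : ℕ) : ℤ) - 5 :=
        zk_unique (by norm_num) h1.2.2.1 h1.2.2.2.1 h2.2.2.1 h2.2.2.2.1
      have h4 : a = a' := Fin.ext (by omega)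
      subst h4
      have := A6 _ j z b i b' i' hz hz'
      rw [this]
    · exact absurd (A4 _ _ _ _ hz) ((B4 _ _ _ _ _ hz').2.2.2.2 _)
    · exact absurd (A4 _ _ _ _ hz') ((B4 _ _ _ _ _ hz).2.2.2.2 _)
    · have h1 := B4 _ _ _ _ _ hz
      have h2 := B4 _ _ _ _ _ hz'
      have h3 : ((a : ℕ) : ℤ) - 8 = ((a' : ℕ) : ℤ) - 8 :=
        zk_unique (by norm_num) h1.2.2.1 h1.2.2.2.1 h2.2.2.1 h2.2.2.2.1
      have h4 : a = a' := Fin.ext (by omega)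
      have h5 : (r : ℕ) = r' := h1.2.1.symm.trans h2.2.1
      have h6 : r = r' := Fin.ext h5
      subst h4
      subst h6
      have := B6 _ _ j z b i b' i' hz hz'
      rw [this]

/-- **(FF0)** -/
theorem stFF0 : StFF0 := ⟨14000, by norm_num, stFF0C⟩

end Vale.Agent.P112.H788
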